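import Mathlib
import Vale.Agent.Lib.P328.RP.Restricted
import Vale.Agent.Lib.P328.RP.Rows
import Vale.Agent.Lib.P328.RP.ThreeProj
import Vale.Agent.Lib.P328.RP.Mixing22
import Vale.Agent.Lib.P328.helper12.TwoSmallRows

/-!
P328: the Knabe argument for the row-pair heat bath with blocks of rows as sites.

The rows of a table system are grouped into blocks (the sites).  If every triple of sites has
gap one (resampling the rows of the triple is dominated by the three resamplings of the rows of
two of its sites) then resampling everything is dominated by the resamplings of the rows of the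
pairs of sites (`block_hgap`).

This is applied to the margins with two arbitrary rows `i0`, `i1` and all other row sums at
most one: the two arbitrary rows form one site.  The triples of sites are three rows with sum
at most one (known), or the block and two such rows; for the latter the inequality is a
hypothesis on tables with four rows (`hT2`).  A pair of sites made of the block and one more
row is compared with the three pairs of rows inside it by a crude inequality for tables with
three rows (hypothesis `hD`, any constant `K ≥ 1`).  The outcome is the gap of the row-pair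
heat bath, the gap of the heat bath on two-by-two blocks and its mixing bound, with the two
hypotheses as parameters.
-/

namespace Vale.Agent.Lib.P328.RP

open Finset
open Vale.Agent.Lib.P335.Bip

namespace BlockKnabe

section general

variable {m n : ℕ} {r : Fin m → ℕ} {c : Fin n → ℕ}

/-- Resampling more rows gives a smaller quadratic form. -/
theorem ip_R_anti {p T : Finset (Fin m)} (hpT : p ⊆ T) (f : CT m n r c → ℝ) :
    ip f (R T f) ≤ ip f (R p f) := by
  have h1 : ip f (R T f) = ip (R p f) (R T (R p f)) := by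
    rw [R_T_R_of_subset hpT, ← R_symm, R_R_of_subset hpT]
  have h2 : ip (R p f) (R T (R p f)) ≤ ip (R p f) (R p f) := ip_cexp_le _ _
  have h3 : ip (R p f) (R p f) = ip f (R p f) := by
    rw [← R_symm, R_idem]
  linarith

/-- a row with sum zero vanishes -/
theorem row_zero {a : Fin m} (ha : r a = 0) (x : CT m n r c) : x.1 a = 0 := by
  funext j
  have h := entry_le x a j
  rw [ha] at h
  exact Nat.le_zero.mp h

/-- Resampling a row with sum zero changes nothing. -/
theorem R_insert_zero_row {a : Fin m} (ha : r a = 0) (S : Finset (Fin m)) :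
    (R (insert a S) : (CT m n r c → ℝ) →ₗ[ℝ] (CT m n r c → ℝ)) = R S := by
  unfold R
  apply cexp_congr_ker
  intro x y
  rw [mask_eq_iff, mask_eq_iff]
  constructor
  · intro h i hi
    by_cases hia : i = a
    · rw [hia, row_zero ha x, row_zero ha y]
    · exact h i (fun h' => (Finset.mem_insert.mp h').elim hia hi)
  · intro h i hi
    exact h i (fun hS => hi (Finset.mem_insert_of_mem hS))

variable {ι : Type*} [DecidableEq ι]

/-- The rows whose site lies in the set `p` of sites. -/
def rowsOf (blk : Fin m → ι) (p : Finset ι) : Finset (Fin m) :=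
  univ.filter (fun i => blk i ∈ p)

theorem mem_rowsOf (blk : Fin m → ι) (p : Finset ι) (i : Fin m) :
    i ∈ rowsOf blk p ↔ blk i ∈ p := by
  unfold rowsOf
  rw [mem_filter]
  exact ⟨fun h => h.2, fun h => ⟨mem_univ _, h⟩⟩

theorem rowsOf_mono (blk : Fin m → ι) {p T : Finset ι} (h : p ⊆ T) :
    rowsOf blk p ⊆ rowsOf blk T := by
  intro i hi
  rw [mem_rowsOf] at hi ⊢
  exact h hi

theorem rowsOf_disjoint (blk : Fin m → ι) {p q : Finset ι} (h : Disjoint p q) :
    Disjoint (rowsOf blk p) (rowsOf blk q) := by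
  rw [Finset.disjoint_left]
  intro i hp hq
  rw [mem_rowsOf] at hp hq
  exact (Finset.disjoint_left.mp h) hp hq

/-- **Knabe with blocks of rows as sites.**  If every triple of sites has gap one, then
resampling the whole table is dominated by the resamplings of the rows of the pairs of
sites. -/
theorem block_hgap [Fintype ι] (blk : Fin m → ι)
    (hcon : ∀ q : Finset (Fin m), q.card = 2 → ∃ p : Finset ι, p.card = 2 ∧ q ⊆ rowsOf blk p)
    (h3 : ∀ T : Finset ι, T.card = 3 → ∀ g : CT m n r c → ℝ,
      ip g g - ip g (R (rowsOf blk T) g)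
        ≤ ∑ p ∈ T.powersetCard 2, (ip g g - ip g (R (rowsOf blk p) g)))
    (f : CT m n r c → ℝ) :
    ip f f - ip f (R univ f)
      ≤ ∑ p ∈ (univ : Finset ι).powersetCard 2, (ip f f - ip f (R (rowsOf blk p) f)) := by
  classical
  set H : (CT m n r c → ℝ) →ₗ[ℝ] (CT m n r c → ℝ) :=
    ∑ p ∈ (univ : Finset ι).powersetCard 2, PR (rowsOf blk p) with hH
  have hHapp : ∀ g, H g = ∑ p ∈ (univ : Finset ι).powersetCard 2, PR (rowsOf blk p) g := by
    intro g
    rw [hH, LinearMap.sum_apply]
  have hform : ∀ g, ip g (H g)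
      = ∑ p ∈ (univ : Finset ι).powersetCard 2, (ip g g - ip g (R (rowsOf blk p) g)) := by
    intro g
    rw [hHapp, ip_sum_right]
    exact Finset.sum_congr rfl (fun p _ => ip_PR _ g)
  have hsq : ∀ g, ip g (H g) ≤ ip (H g) (H g) := by
    intro g
    rw [hHapp]
    refine knabe (fun p => PR (rowsOf blk p)) (fun T => R (rowsOf blk T))
      (fun p _ => PR_symm _) (fun p _ => PR_idem _)
      (fun p q _ _ hd => PR_comm _ _ (rowsOf_disjoint blk hd))
      (fun T _ => R_symm _) (fun T _ => R_idem _) ?_ ?_ g
    · intro T _ p hp g'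
      exact PR_R_of_subset (rowsOf_mono blk (Finset.mem_powersetCard.mp hp).1) g'
    · intro T hT g'
      have h1 := h3 T hT g'
      have h2 : ∑ p ∈ T.powersetCard 2, ip g' (PR (rowsOf blk p) g')
          = ∑ p ∈ T.powersetCard 2, (ip g' g' - ip g' (R (rowsOf blk p) g')) :=
        Finset.sum_congr rfl (fun p _ => ip_PR _ g')
      rw [h2]
      exact h1
  have hker : ∀ g, H g = 0 → R univ g = g := by
    intro g hg
    have h0 : ip g (H g) = 0 := by rw [hg, ip_zero_right]
    rw [hform] at h0
    have hterm : ∀ p ∈ (univ : Finset ι).powersetCard 2,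
        ip g g - ip g (R (rowsOf blk p) g) = 0 := by
      have hnn : ∀ p ∈ (univ : Finset ι).powersetCard 2,
          0 ≤ ip g g - ip g (R (rowsOf blk p) g) :=
        fun p _ => sub_nonneg.mpr (ip_cexp_le _ g)
      exact (Finset.sum_eq_zero_iff_of_nonneg hnn).mp h0
    have hfixS : ∀ p : Finset ι, p.card = 2 → R (rowsOf blk p) g = g := by
      intro p hp
      have h1 := hterm p (Finset.mem_powersetCard.mpr ⟨Finset.subset_univ _, hp⟩)
      have h2 : ip (g - R (rowsOf blk p) g) (g - R (rowsOf blk p) g) = 0 := by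
        rw [← h1]
        exact ip_sub_cexp _ g
      have h3' := ip_self_eq_zero.mp h2
      exact (sub_eq_zero.mp h3').symm
    have hfix : ∀ q : Finset (Fin m), q.card = 2 → R q g = g := by
      intro q hq
      obtain ⟨p, hp, hqp⟩ := hcon q hq
      have h1 := hfixS p hp
      calc R q g = R q (R (rowsOf blk p) g) := by rw [h1]
        _ = R (rowsOf blk p) g := R_R_of_subset hqp g
        _ = g := h1
    exact cexp_of_factor _ (fun x y _ => const_of_fixed g hfix x y)
  have key := gap_of_sq H (R univ)
    (by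
      intro g h
      rw [hHapp, hHapp, ip_sum_right, ip_sum_left]
      exact Finset.sum_congr rfl (fun p _ => PR_symm _ g h))
    (R_symm univ)
    (by
      intro g
      rw [hHapp]
      exact Finset.sum_eq_zero (fun p _ => PR_R_of_subset (Finset.subset_univ _) g))
    (by
      intro g
      rw [hform]
      exact Finset.sum_nonneg (fun p _ => sub_nonneg.mpr (ip_cexp_le _ g)))
    hsq hker f
  rw [hform] at key
  exact key

end general

/-! ### transfer of the two hypotheses to rows of a bigger system -/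

section transfers

variable {n : ℕ}

/-- The four-row inequality, transferred to four rows `φ 0, φ 1, φ 2, φ 3` of any system in
which the rows `φ 2` and `φ 3` have sum one. -/
theorem four_transfer
    (hT2 : ∀ (r4 : Fin 4 → ℕ) (c' : Fin n → ℕ), r4 2 = 1 → r4 3 = 1 → ∀ g : CT 4 n r4 c' → ℝ,
      ip g (R ({0, 1, 2} : Finset (Fin 4)) g) + ip g (R ({0, 1, 3} : Finset (Fin 4)) g)
        + ip g (R ({2, 3} : Finset (Fin 4)) g) ≤ 2 * ip g g + ip g (R univ g))
    {m : ℕ} {r : Fin m → ℕ} (φ : Fin 4 ↪ Fin m) (h2 : r (φ 2) = 1) (h3 : r (φ 3) = 1)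
    {c : Fin n → ℕ} (f : CT m n r c → ℝ) :
    ip f (R (({0, 1, 2} : Finset (Fin 4)).map φ) f)
        + ip f (R (({0, 1, 3} : Finset (Fin 4)).map φ) f)
        + ip f (R (({2, 3} : Finset (Fin 4)).map φ) f)
      ≤ 2 * ip f f + ip f (R ((univ : Finset (Fin 4)).map φ) f) := by
  classical
  set a : Fin 4 → ℝ := ![1, 1, 1, -1] with ha
  set P : Fin 4 → Finset (Fin 4) := ![{0, 1, 2}, {0, 1, 3}, {2, 3}, univ] with hP
  have h : ∀ (c' : Fin n → ℕ) (g : CT 4 n (r ∘ φ) c' → ℝ),
      ∑ α ∈ (univ : Finset (Fin 4)), a α * ip g (E (P α) (univ : Finset (Fin n)) g)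
        ≤ 2 * ip g g := by
    intro c' g
    have h' := hT2 (r ∘ φ) c' h2 h3 g
    rw [Fin.sum_univ_four]
    simp only [ha, hP, Matrix.cons_val_zero, Matrix.cons_val_one, Matrix.cons_val_two,
      Matrix.cons_val_three, Matrix.head_cons, Matrix.tail_cons, E_univ_right]
    linarith
  have key := block_transfer_on (univ : Finset (Fin 4)) a P (fun _ => (univ : Finset (Fin n))) 2
    φ h f
  rw [Fin.sum_univ_four] at key
  simp only [ha, hP, Matrix.cons_val_zero, Matrix.cons_val_one, Matrix.cons_val_two,
    Matrix.cons_val_three, Matrix.head_cons, Matrix.tail_cons, E_univ_right] at key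
  linarith

/-- The crude three-row inequality, transferred to three rows `φ 0, φ 1, φ 2` of any system in
which the row `φ 2` has sum one. -/
theorem crude_transfer (K : ℝ)
    (hD : ∀ (r3 : Fin 3 → ℕ) (c' : Fin n → ℕ), r3 2 = 1 → ∀ g : CT 3 n r3 c' → ℝ,
      ip g g - ip g (R univ g)
        ≤ K * ∑ q ∈ (univ : Finset (Fin 3)).powersetCard 2, (ip g g - ip g (R q g)))
    {m : ℕ} {r : Fin m → ℕ} (φ : Fin 3 ↪ Fin m) (h2 : r (φ 2) = 1)
    {c : Fin n → ℕ} (f : CT m n r c → ℝ) :
    ip f f - ip f (R ((univ : Finset (Fin 3)).map φ) f)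
      ≤ K * ∑ q ∈ (univ : Finset (Fin 3)).powersetCard 2, (ip f f - ip f (R (q.map φ) f)) := by
  classical
  have hc32 : ((Nat.choose 3 2 : ℕ) : ℝ) = 3 := by norm_num [Nat.choose]
  set s : Finset (Option (Finset (Fin 3))) :=
    insertNone ((univ : Finset (Fin 3)).powersetCard 2) with hs
  set a : Option (Finset (Fin 3)) → ℝ := fun o => if o = none then -1 else K with ha
  set P : Option (Finset (Fin 3)) → Finset (Fin 3) := fun o => o.getD univ with hP
  have h : ∀ (c' : Fin n → ℕ) (g : CT 3 n (r ∘ φ) c' → ℝ),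
      ∑ α ∈ s, a α * ip g (E (P α) (univ : Finset (Fin n)) g) ≤ (3 * K - 1) * ip g g := by
    intro c' g
    have h' := hD (r ∘ φ) c' h2 g
    rw [Finset.sum_sub_distrib, Finset.sum_const, Finset.card_powersetCard, Finset.card_univ,
      Fintype.card_fin, nsmul_eq_mul, hc32] at h'
    rw [hs, Finset.sum_insertNone]
    simp only [ha, hP, Option.getD_none, Option.getD_some, if_true, reduceCtorEq, if_false,
      E_univ_right]
    rw [← Finset.mul_sum]
    linarith
  have key := block_transfer_on s a P (fun _ => (univ : Finset (Fin n))) (3 * K - 1) φ h f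
  rw [hs, Finset.sum_insertNone] at key
  simp only [ha, hP, Option.getD_none, Option.getD_some, if_true, reduceCtorEq, if_false,
    E_univ_right] at key
  rw [← Finset.mul_sum] at key
  rw [Finset.sum_sub_distrib, Finset.sum_const, Finset.card_powersetCard, Finset.card_univ,
    Fintype.card_fin, nsmul_eq_mul, hc32]
  linarith

end transfers

/-! ### two arbitrary rows as one site -/

section twofat

theorem inj3 {α : Type*} (x0 x1 x2 : α) (h01 : x0 ≠ x1) (h02 : x0 ≠ x2) (h12 : x1 ≠ x2) :
    Function.Injective ![x0, x1, x2] := by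
  intro i j hij
  fin_cases i <;> fin_cases j <;> simp_all

theorem inj4 {α : Type*} (x0 x1 x2 x3 : α) (h01 : x0 ≠ x1) (h02 : x0 ≠ x2) (h03 : x0 ≠ x3)
    (h12 : x1 ≠ x2) (h13 : x1 ≠ x3) (h23 : x2 ≠ x3) :
    Function.Injective ![x0, x1, x2, x3] := by
  intro i j hij
  fin_cases i <;> fin_cases j <;> simp_all

theorem univ3 : (univ : Finset (Fin 3)) = {0, 1, 2} := by decide

theorem univ4 : (univ : Finset (Fin 4)) = {0, 1, 2, 3} := by decide

theorem pairs3 : (univ : Finset (Fin 3)).powersetCard 2 = {{0, 1}, {0, 2}, {1, 2}} := by decide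

variable {m n : ℕ} {r : Fin m → ℕ} {c : Fin n → ℕ}

/-- The site of a row: the row `i1` is put into the site of the row `i0`, every other row is
its own site (the site `i1` stays empty). -/
def blk (i0 i1 : Fin m) (i : Fin m) : Fin m := if i = i1 then i0 else i

theorem mem_rowsOf_blk (i0 i1 : Fin m) (p : Finset (Fin m)) (i : Fin m) :
    i ∈ rowsOf (blk i0 i1) p ↔ (i = i1 ∧ i0 ∈ p) ∨ (i ≠ i1 ∧ i ∈ p) := by
  rw [mem_rowsOf]
  unfold blk
  by_cases h : i = i1
  · simp [h]
  · simp [h]

theorem rowsOf_blk_of_mem {i0 i1 : Fin m} {p : Finset (Fin m)} (h : i0 ∈ p) :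
    rowsOf (blk i0 i1) p = insert i1 p := by
  ext i
  rw [mem_rowsOf_blk, mem_insert]
  constructor
  · rintro (⟨h1, _⟩ | ⟨_, h2⟩)
    · exact Or.inl h1
    · exact Or.inr h2
  · rintro (h1 | h2)
    · exact Or.inl ⟨h1, h⟩
    · by_cases h3 : i = i1
      · exact Or.inl ⟨h3, h⟩
      · exact Or.inr ⟨h3, h2⟩

theorem rowsOf_blk_of_not_mem {i0 i1 : Fin m} {p : Finset (Fin m)} (h : i0 ∉ p) :
    rowsOf (blk i0 i1) p = p.erase i1 := by
  ext i
  rw [mem_rowsOf_blk, mem_erase]
  constructor
  · rintro (⟨_, h2⟩ | h2)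
    · exact absurd h2 h
    · exact h2
  · intro h2
    exact Or.inr h2

/-- every pair of rows lies in the rows of a pair of sites -/
theorem blk_con (i0 i1 : Fin m) (q : Finset (Fin m)) (hq : q.card = 2) :
    ∃ p : Finset (Fin m), p.card = 2 ∧ q ⊆ rowsOf (blk i0 i1) p := by
  by_cases h0 : i0 ∈ q
  · refine ⟨q, hq, ?_⟩
    rw [rowsOf_blk_of_mem h0]
    exact subset_insert _ _
  · by_cases h1 : i1 ∈ q
    · refine ⟨insert i0 (q.erase i1), ?_, ?_⟩
      · rw [card_insert_of_notMem (fun h => h0 (mem_of_mem_erase h)), card_erase_of_mem h1, hq]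
      · rw [rowsOf_blk_of_mem (mem_insert_self _ _)]
        intro i hi
        by_cases hi1 : i = i1
        · rw [hi1]
          exact mem_insert_self _ _
        · exact mem_insert_of_mem (mem_insert_of_mem (mem_erase.mpr ⟨hi1, hi⟩))
    · refine ⟨q, hq, ?_⟩
      rw [rowsOf_blk_of_not_mem h0, erase_eq_of_notMem h1]

/-- The three-row inequality for three rows with sum at most one, inside any system. -/
theorem triple_small (T : Finset (Fin m)) (hT : T.card = 3) (hr : ∀ i ∈ T, r i ≤ 1)
    (g : CT m n r c → ℝ) :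
    ip g g - ip g (R T g) ≤ ∑ p ∈ T.powersetCard 2, (ip g g - ip g (R p g)) := by
  classical
  obtain ⟨φ, rfl⟩ : ∃ φ : Fin 3 ↪ Fin m, (univ : Finset (Fin 3)).map φ = T :=
    ⟨(T.orderEmbOfFin hT).toEmbedding, map_orderEmbOfFin_univ T hT⟩
  have hmem : ∀ k : Fin 3, φ k ∈ (univ : Finset (Fin 3)).map φ :=
    fun k => mem_map_of_mem φ (mem_univ k)
  have h3 : ∀ (c' : Fin n → ℕ) (g' : CT 3 n (r ∘ φ) c' → ℝ),
      ∑ q ∈ (univ : Finset (Fin 3)).powersetCard 2, ip g' (R q g')
        ≤ 2 * ip g' g' + ip g' (R univ g') := by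
    intro c' g'
    apply threeRow_of_rows (r ∘ φ) c'
    exact fun g'' hg'' => threeRow_rows_of_two_small (r ∘ φ) c' 0 1 (by decide)
      (hr _ (hmem 0)) (hr _ (hmem 1)) g'' hg''
  have h1 := triple_of_threeRow_E_on φ h3 g
  rw [Finset.sum_sub_distrib, Finset.sum_const, Finset.card_powersetCard, hT, nsmul_eq_mul]
  have hc32 : ((Nat.choose 3 2 : ℕ) : ℝ) = 3 := by norm_num [Nat.choose]
  rw [hc32]
  linarith

/-- The triples of sites have gap one. -/
theorem blk_triple {i0 i1 : Fin m} (h01 : i0 ≠ i1) (hr : ∀ i, i ≠ i0 → i ≠ i1 → r i ≤ 1)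
    (hT2 : ∀ (r4 : Fin 4 → ℕ) (c' : Fin n → ℕ), r4 2 = 1 → r4 3 = 1 → ∀ g : CT 4 n r4 c' → ℝ,
      ip g (R ({0, 1, 2} : Finset (Fin 4)) g) + ip g (R ({0, 1, 3} : Finset (Fin 4)) g)
        + ip g (R ({2, 3} : Finset (Fin 4)) g) ≤ 2 * ip g g + ip g (R univ g))
    (T : Finset (Fin m)) (hT : T.card = 3) (g : CT m n r c → ℝ) :
    ip g g - ip g (R (rowsOf (blk i0 i1) T) g)
      ≤ ∑ p ∈ T.powersetCard 2, (ip g g - ip g (R (rowsOf (blk i0 i1) p) g)) := by
  classical
  have hnn : ∀ p ∈ T.powersetCard 2, 0 ≤ ip g g - ip g (R (rowsOf (blk i0 i1) p) g) :=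
    fun p _ => sub_nonneg.mpr (ip_cexp_le _ g)
  by_cases h1 : i1 ∈ T
  · -- the empty site is in the triple: one term is enough
    have hp : T.erase i1 ∈ T.powersetCard 2 := by
      rw [mem_powersetCard]
      refine ⟨erase_subset _ _, ?_⟩
      rw [card_erase_of_mem h1, hT]
    have hrows : rowsOf (blk i0 i1) T = rowsOf (blk i0 i1) (T.erase i1) := by
      ext i
      rw [mem_rowsOf_blk, mem_rowsOf_blk, mem_erase, mem_erase]
      constructor
      · rintro (⟨h2, h3⟩ | ⟨h2, h3⟩)
        · exact Or.inl ⟨h2, h01, h3⟩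
        · exact Or.inr ⟨h2, h2, h3⟩
      · rintro (⟨h2, _, h3⟩ | ⟨h2, _, h3⟩)
        · exact Or.inl ⟨h2, h3⟩
        · exact Or.inr ⟨h2, h3⟩
    rw [hrows]
    exact Finset.single_le_sum hnn hp
  · by_cases h0 : i0 ∈ T
    · -- the block and two rows with sum at most one
      have hc2 : (T.erase i0).card = 2 := by rw [card_erase_of_mem h0, hT]
      obtain ⟨a, b, hab, hTab⟩ := Finset.card_eq_two.mp hc2
      have haT : a ∈ T.erase i0 := by rw [hTab]; exact mem_insert_self _ _
      have hbT : b ∈ T.erase i0 := by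
        rw [hTab]
        exact mem_insert_of_mem (mem_singleton_self _)
      have ha0 : a ≠ i0 := (mem_erase.mp haT).1
      have hb0 : b ≠ i0 := (mem_erase.mp hbT).1
      have ha1 : a ≠ i1 := fun h => h1 (h ▸ (mem_erase.mp haT).2)
      have hb1 : b ≠ i1 := fun h => h1 (h ▸ (mem_erase.mp hbT).2)
      have hTeq : T = {i0, a, b} := by
        rw [← insert_erase h0, hTab]
      -- the three pairs of sites
      have hpa : ({i0, a} : Finset (Fin m)) ∈ T.powersetCard 2 := by
        rw [mem_powersetCard, hTeq]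
        refine ⟨?_, card_pair (Ne.symm ha0)⟩
        intro i hi
        simp only [mem_insert, mem_singleton] at hi ⊢
        tauto
      have hpb : ({i0, b} : Finset (Fin m)) ∈ T.powersetCard 2 := by
        rw [mem_powersetCard, hTeq]
        refine ⟨?_, card_pair (Ne.symm hb0)⟩
        intro i hi
        simp only [mem_insert, mem_singleton] at hi ⊢
        tauto
      have hpab : ({a, b} : Finset (Fin m)) ∈ T.powersetCard 2 := by
        rw [mem_powersetCard, hTeq]
        refine ⟨?_, card_pair hab⟩
        intro i hi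
        simp only [mem_insert, mem_singleton] at hi ⊢
        tauto
      have hne1 : ({i0, a} : Finset (Fin m)) ≠ {i0, b} := by
        intro h
        have h2 : a ∈ ({i0, b} : Finset (Fin m)) := by
          rw [← h]
          exact mem_insert_of_mem (mem_singleton_self _)
        simp only [mem_insert, mem_singleton] at h2
        tauto
      have hne2 : ({i0, a} : Finset (Fin m)) ≠ {a, b} := by
        intro h
        have h2 : i0 ∈ ({a, b} : Finset (Fin m)) := by
          rw [← h]
          exact mem_insert_self _ _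
        simp only [mem_insert, mem_singleton] at h2
        tauto
      have hne3 : ({i0, b} : Finset (Fin m)) ≠ {a, b} := by
        intro h
        have h2 : i0 ∈ ({a, b} : Finset (Fin m)) := by
          rw [← h]
          exact mem_insert_self _ _
        simp only [mem_insert, mem_singleton] at h2
        tauto
      have hsub : ({{i0, a}, {i0, b}, {a, b}} : Finset (Finset (Fin m))) ⊆ T.powersetCard 2 := by
        intro p hp
        simp only [mem_insert, mem_singleton] at hp
        rcases hp with rfl | rfl | rfl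
        · exact hpa
        · exact hpb
        · exact hpab
      have hge := Finset.sum_le_sum_of_subset_of_nonneg hsub (fun p hp _ => hnn p hp)
      rw [Finset.sum_insert (by
          simp only [mem_insert, mem_singleton]
          tauto),
        Finset.sum_insert (by
          simp only [mem_singleton]
          exact hne3), Finset.sum_singleton] at hge
      refine le_trans ?_ hge
      -- the rows of the sites
      have hrT : rowsOf (blk i0 i1) T = {i0, i1, a, b} := by
        rw [rowsOf_blk_of_mem h0, hTeq]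
        ext i
        simp only [mem_insert, mem_singleton]
        tauto
      have hra : rowsOf (blk i0 i1) {i0, a} = {i0, i1, a} := by
        rw [rowsOf_blk_of_mem (mem_insert_self _ _)]
        ext i
        simp only [mem_insert, mem_singleton]
        tauto
      have hrb : rowsOf (blk i0 i1) {i0, b} = {i0, i1, b} := by
        rw [rowsOf_blk_of_mem (mem_insert_self _ _)]
        ext i
        simp only [mem_insert, mem_singleton]
        tauto
      have hrab : rowsOf (blk i0 i1) {a, b} = {a, b} := by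
        rw [rowsOf_blk_of_not_mem (by
          simp only [mem_insert, mem_singleton]
          tauto)]
        apply erase_eq_of_notMem
        simp only [mem_insert, mem_singleton]
        tauto
      rw [hrT, hra, hrb, hrab]
      have hnnb : 0 ≤ ip g g - ip g (R ({i0, i1, b} : Finset (Fin m)) g) :=
        sub_nonneg.mpr (ip_cexp_le _ g)
      have hnna : 0 ≤ ip g g - ip g (R ({i0, i1, a} : Finset (Fin m)) g) :=
        sub_nonneg.mpr (ip_cexp_le _ g)
      have hnnab : 0 ≤ ip g g - ip g (R ({a, b} : Finset (Fin m)) g) :=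
        sub_nonneg.mpr (ip_cexp_le _ g)
      have hra1 := hr a ha0 ha1
      have hrb1 := hr b hb0 hb1
      by_cases hza : r a = 0
      · have e : ({i0, i1, a, b} : Finset (Fin m)) = insert a {i0, i1, b} := by
          ext i
          simp only [mem_insert, mem_singleton]
          tauto
        rw [e, R_insert_zero_row hza]
        linarith
      · by_cases hzb : r b = 0
        · have e : ({i0, i1, a, b} : Finset (Fin m)) = insert b {i0, i1, a} := by
            ext i
            simp only [mem_insert, mem_singleton]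
            tauto
          rw [e, R_insert_zero_row hzb]
          linarith
        · have hinj := inj4 i0 i1 a b h01 (Ne.symm ha0) (Ne.symm hb0) (Ne.symm ha1)
            (Ne.symm hb1) hab
          set φ : Fin 4 ↪ Fin m := ⟨![i0, i1, a, b], hinj⟩ with hφ
          have e0 : φ 0 = i0 := rfl
          have e1 : φ 1 = i1 := rfl
          have e2 : φ 2 = a := rfl
          have e3 : φ 3 = b := rfl
          have key := four_transfer hT2 φ (by rw [e2]; omega) (by rw [e3]; omega) g
          rw [univ4] at key
          simp only [Finset.map_insert, Finset.map_singleton, e0, e1, e2, e3] at key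
          linarith
    · -- three rows with sum at most one
      have hrows : rowsOf (blk i0 i1) T = T := by
        rw [rowsOf_blk_of_not_mem h0, erase_eq_of_notMem h1]
      have hrowsp : ∀ p ∈ T.powersetCard 2, rowsOf (blk i0 i1) p = p := by
        intro p hp
        have hpT := (mem_powersetCard.mp hp).1
        rw [rowsOf_blk_of_not_mem (fun h => h0 (hpT h)), erase_eq_of_notMem (fun h => h1 (hpT h))]
      rw [hrows, Finset.sum_congr rfl (fun p hp => by rw [hrowsp p hp])]
      refine triple_small T hT (fun i hi => hr i ?_ ?_) g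
      · exact fun h => h0 (h ▸ hi)
      · exact fun h => h1 (h ▸ hi)

/-- The pairs of sites are dominated by the pairs of rows. -/
theorem blk_pairs_le {i0 i1 : Fin m} (h01 : i0 ≠ i1) (hr : ∀ i, i ≠ i0 → i ≠ i1 → r i ≤ 1)
    (K : ℝ) (hK : 1 ≤ K)
    (hD : ∀ (r3 : Fin 3 → ℕ) (c' : Fin n → ℕ), r3 2 = 1 → ∀ g : CT 3 n r3 c' → ℝ,
      ip g g - ip g (R univ g)
        ≤ K * ∑ q ∈ (univ : Finset (Fin 3)).powersetCard 2, (ip g g - ip g (R q g)))
    (f : CT m n r c → ℝ) :
    ∑ p ∈ (univ : Finset (Fin m)).powersetCard 2,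
        (ip f f - ip f (R (rowsOf (blk i0 i1) p) f))
      ≤ (K * m + 1) * ∑ p ∈ (univ : Finset (Fin m)).powersetCard 2, (ip f f - ip f (R p f)) := by
  classical
  set H : ℝ := ∑ p ∈ (univ : Finset (Fin m)).powersetCard 2, (ip f f - ip f (R p f)) with hH
  have hK0 : 0 ≤ K := by linarith
  have hnn : ∀ p ∈ (univ : Finset (Fin m)).powersetCard 2, 0 ≤ ip f f - ip f (R p f) :=
    fun p _ => sub_nonneg.mpr (ip_cexp_le _ f)
  have hH0 : 0 ≤ H := Finset.sum_nonneg hnn
  have hle : ∀ p ∈ (univ : Finset (Fin m)).powersetCard 2, ip f f - ip f (R p f) ≤ H :=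
    fun p hp => Finset.single_le_sum hnn hp
  have hHK : H ≤ K * H := by nlinarith
  -- a bound for each pair of sites
  have hpt : ∀ p ∈ (univ : Finset (Fin m)).powersetCard 2,
      ip f f - ip f (R (rowsOf (blk i0 i1) p) f)
        ≤ (ip f f - ip f (R p f)) + (if i0 ∈ p then K * H else 0) := by
    intro p hp
    have hp2 : p.card = 2 := (mem_powersetCard.mp hp).2
    by_cases h0 : i0 ∈ p
    · rw [if_pos h0]
      have hpn := hnn p hp
      suffices hsuff : ip f f - ip f (R (rowsOf (blk i0 i1) p) f) ≤ K * H by linarith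
      have hc1 : (p.erase i0).card = 1 := by rw [card_erase_of_mem h0, hp2]
      obtain ⟨s, hs⟩ := Finset.card_eq_one.mp hc1
      have hsp : s ∈ p.erase i0 := by
        rw [hs]
        exact mem_singleton_self _
      have hs0 : s ≠ i0 := (mem_erase.mp hsp).1
      have hpeq : p = {i0, s} := by rw [← insert_erase h0, hs]
      by_cases hs1 : s = i1
      · -- the pair of the two arbitrary rows
        have hrows : rowsOf (blk i0 i1) p = p := by
          rw [rowsOf_blk_of_mem h0]
          apply insert_eq_of_mem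
          rw [← hs1]
          exact (mem_erase.mp hsp).2
        rw [hrows]
        have h2 := hle p hp
        linarith
      · have hrows : rowsOf (blk i0 i1) p = {i0, i1, s} := by
          rw [rowsOf_blk_of_mem h0, hpeq]
          ext i
          simp only [mem_insert, mem_singleton]
          tauto
        rw [hrows]
        have hrs := hr s hs0 hs1
        by_cases hz : r s = 0
        · have e : ({i0, i1, s} : Finset (Fin m)) = insert s {i0, i1} := by
            ext i
            simp only [mem_insert, mem_singleton]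
            tauto
          rw [e, R_insert_zero_row hz]
          have h2 : ({i0, i1} : Finset (Fin m)) ∈ (univ : Finset (Fin m)).powersetCard 2 :=
            mem_powersetCard.mpr ⟨subset_univ _, card_pair h01⟩
          have h3 := hle _ h2
          linarith
        · have hinj := inj3 i0 i1 s h01 (Ne.symm hs0) (Ne.symm hs1)
          set φ : Fin 3 ↪ Fin m := ⟨![i0, i1, s], hinj⟩ with hφ
          have e0 : φ 0 = i0 := rfl
          have e1 : φ 1 = i1 := rfl
          have e2 : φ 2 = s := rfl
          have key := crude_transfer K hD φ (by rw [e2]; omega) f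
          have hsum : ∑ q ∈ (univ : Finset (Fin 3)).powersetCard 2,
              (ip f f - ip f (R (q.map φ) f)) ≤ H := by
            have h3 : ∑ q ∈ (univ : Finset (Fin 3)).powersetCard 2,
                  (ip f f - ip f (R (q.map φ) f))
                = ∑ p ∈ ((univ : Finset (Fin 3)).map φ).powersetCard 2,
                  (ip f f - ip f (R p f)) := by
              rw [powersetCard_map, Finset.sum_map]
              simp only [RelEmbedding.coe_toEmbedding, mapEmbedding_apply]
            rw [h3]
            exact Finset.sum_le_sum_of_subset_of_nonneg (powersetCard_mono (subset_univ _))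
              (fun p hp _ => hnn p hp)
          have h4 := mul_le_mul_of_nonneg_left hsum hK0
          have e : ((univ : Finset (Fin 3)).map φ) = {i0, i1, s} := by
            rw [univ3]
            simp only [Finset.map_insert, Finset.map_singleton, e0, e1, e2]
          rw [e] at key
          linarith
    · rw [if_neg h0, add_zero]
      have hsub : rowsOf (blk i0 i1) p ⊆ p := by
        rw [rowsOf_blk_of_not_mem h0]
        exact erase_subset _ _
      have h2 := ip_R_anti hsub f
      linarith
  -- the number of pairs of sites that contain the block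
  have hcount : (((univ : Finset (Fin m)).powersetCard 2).filter (fun p => i0 ∈ p)).card ≤ m := by
    have hsubset : ((univ : Finset (Fin m)).powersetCard 2).filter (fun p => i0 ∈ p)
        ⊆ (univ : Finset (Fin m)).image (fun s => ({i0, s} : Finset (Fin m))) := by
      intro p hp
      rw [mem_filter] at hp
      have hp2 : p.card = 2 := (mem_powersetCard.mp hp.1).2
      have hc1 : (p.erase i0).card = 1 := by rw [card_erase_of_mem hp.2, hp2]
      obtain ⟨s, hs⟩ := Finset.card_eq_one.mp hc1
      rw [mem_image]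
      exact ⟨s, mem_univ _, by rw [← insert_erase hp.2, hs]⟩
    calc (((univ : Finset (Fin m)).powersetCard 2).filter (fun p => i0 ∈ p)).card
        ≤ ((univ : Finset (Fin m)).image (fun s => ({i0, s} : Finset (Fin m)))).card :=
          card_le_card hsubset
      _ ≤ (univ : Finset (Fin m)).card := card_image_le
      _ = m := by rw [card_univ, Fintype.card_fin]
  calc ∑ p ∈ (univ : Finset (Fin m)).powersetCard 2,
        (ip f f - ip f (R (rowsOf (blk i0 i1) p) f))
      ≤ ∑ p ∈ (univ : Finset (Fin m)).powersetCard 2,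
          ((ip f f - ip f (R p f)) + (if i0 ∈ p then K * H else 0)) := Finset.sum_le_sum hpt
    _ = H + ((((univ : Finset (Fin m)).powersetCard 2).filter (fun p => i0 ∈ p)).card : ℝ)
          * (K * H) := by
        rw [Finset.sum_add_distrib, ← Finset.sum_filter, Finset.sum_const, nsmul_eq_mul]
    _ ≤ H + (m : ℝ) * (K * H) := by
        have hKH : 0 ≤ K * H := mul_nonneg hK0 hH0
        have hc : ((((univ : Finset (Fin m)).powersetCard 2).filter (fun p => i0 ∈ p)).card : ℝ)
            ≤ (m : ℝ) := by exact_mod_cast hcount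
        have h5 := mul_le_mul_of_nonneg_right hc hKH
        linarith
    _ = (K * m + 1) * H := by ring

/-- **The row-pair gap for two arbitrary rows and rows with sum at most one**, given the
four-row inequality `hT2` and the crude three-row inequality `hD`. -/
theorem hgap_two_fat_unit {m n : ℕ} (r : Fin m → ℕ) (i0 i1 : Fin m) (h01 : i0 ≠ i1)
    (hr : ∀ i, i ≠ i0 → i ≠ i1 → r i ≤ 1) (K : ℝ) (hK : 1 ≤ K)
    (hT2 : ∀ (r4 : Fin 4 → ℕ) (c' : Fin n → ℕ), r4 2 = 1 → r4 3 = 1 → ∀ g : CT 4 n r4 c' → ℝ,
      ip g (R ({0, 1, 2} : Finset (Fin 4)) g) + ip g (R ({0, 1, 3} : Finset (Fin 4)) g)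
        + ip g (R ({2, 3} : Finset (Fin 4)) g) ≤ 2 * ip g g + ip g (R univ g))
    (hD : ∀ (r3 : Fin 3 → ℕ) (c' : Fin n → ℕ), r3 2 = 1 → ∀ g : CT 3 n r3 c' → ℝ,
      ip g g - ip g (R univ g)
        ≤ K * ∑ q ∈ (univ : Finset (Fin 3)).powersetCard 2, (ip g g - ip g (R q g)))
    (c : Fin n → ℕ) (f : CT m n r c → ℝ) :
    ip f f - ip f (R univ f)
      ≤ (K * m + 1) * ∑ p ∈ (univ : Finset (Fin m)).powersetCard 2, (ip f f - ip f (R p f)) :=
  (block_hgap (blk i0 i1) (blk_con i0 i1) (blk_triple h01 hr hT2) f).trans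
    (blk_pairs_le h01 hr K hK hD f)

/-- The gap of the heat bath on two-by-two blocks for the same margins. -/
theorem gap22_two_fat_unit {m n : ℕ} (r : Fin m → ℕ) (i0 i1 : Fin m) (h01 : i0 ≠ i1)
    (hr : ∀ i, i ≠ i0 → i ≠ i1 → r i ≤ 1) (K : ℝ) (hK : 1 ≤ K)
    (hT2 : ∀ (r4 : Fin 4 → ℕ) (c' : Fin n → ℕ), r4 2 = 1 → r4 3 = 1 → ∀ g : CT 4 n r4 c' → ℝ,
      ip g (R ({0, 1, 2} : Finset (Fin 4)) g) + ip g (R ({0, 1, 3} : Finset (Fin 4)) g)
        + ip g (R ({2, 3} : Finset (Fin 4)) g) ≤ 2 * ip g g + ip g (R univ g))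
    (hD : ∀ (r3 : Fin 3 → ℕ) (c' : Fin n → ℕ), r3 2 = 1 → ∀ g : CT 3 n r3 c' → ℝ,
      ip g g - ip g (R univ g)
        ≤ K * ∑ q ∈ (univ : Finset (Fin 3)).powersetCard 2, (ip g g - ip g (R q g)))
    (c : Fin n → ℕ) (f : CT m n r c → ℝ) :
    1 / (K * m + 1) * (ip f f - ip f (R univ f))
      ≤ ∑ p ∈ (univ : Finset (Fin m)).powersetCard 2,
          ∑ q ∈ (univ : Finset (Fin n)).powersetCard 2, (ip f f - ip f (E p q f)) := by
  have hpos : (0 : ℝ) < K * m + 1 := by
    have hm0 : (0 : ℝ) ≤ (m : ℝ) := Nat.cast_nonneg m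
    nlinarith
  have h1 := hgap_two_fat_unit r i0 i1 h01 hr K hK hT2 hD c f
  have h2 : ∑ p ∈ (univ : Finset (Fin m)).powersetCard 2, (ip f f - ip f (R p f))
      ≤ ∑ p ∈ (univ : Finset (Fin m)).powersetCard 2,
          ∑ q ∈ (univ : Finset (Fin n)).powersetCard 2, (ip f f - ip f (E p q f)) :=
    Finset.sum_le_sum (fun p hp => pair_block_gap p (Finset.mem_powersetCard.mp hp).2 f)
  have h3 := h1.trans (mul_le_mul_of_nonneg_left h2 hpos.le)
  rw [one_div, inv_mul_le_iff₀ hpos]
  exact h3

/-- **Mixing of the heat bath on two-by-two blocks for two arbitrary rows and rows with sum at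
most one**, given the four-row inequality `hT2` and the crude three-row inequality `hD` with
constant `K`. -/
theorem mixing22_two_fat_unit_of {m n : ℕ} (hm : 2 ≤ m) (hn : 2 ≤ n) (r : Fin m → ℕ)
    (i0 i1 : Fin m) (h01 : i0 ≠ i1) (hr : ∀ i, i ≠ i0 → i ≠ i1 → r i ≤ 1) (K : ℝ) (hK : 1 ≤ K)
    (hT2 : ∀ (r4 : Fin 4 → ℕ) (c' : Fin n → ℕ), r4 2 = 1 → r4 3 = 1 → ∀ g : CT 4 n r4 c' → ℝ,
      ip g (R ({0, 1, 2} : Finset (Fin 4)) g) + ip g (R ({0, 1, 3} : Finset (Fin 4)) g)
        + ip g (R ({2, 3} : Finset (Fin 4)) g) ≤ 2 * ip g g + ip g (R univ g))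
    (hD : ∀ (r3 : Fin 3 → ℕ) (c' : Fin n → ℕ), r3 2 = 1 → ∀ g : CT 3 n r3 c' → ℝ,
      ip g g - ip g (R univ g)
        ≤ K * ∑ q ∈ (univ : Finset (Fin 3)).powersetCard 2, (ip g g - ip g (R q g)))
    (c : Fin n → ℕ) (x : CT m n r c) (ε : ℝ) (hε : 0 < ε) (hε1 : ε ≤ 1) (t : ℕ)
    (ht : (m : ℝ) ^ 2 * (n : ℝ) ^ 2 * (K * m + 1) *
      (m * n * Real.log (((∑ i, r i : ℕ) : ℝ) + 1) + Real.log (1 / ε)) ≤ t) :
    (1 / 2) * ∑ y, |(heatBath22 m n r c ^ t) x y - 1 / (Fintype.card (CT m n r c) : ℝ)| ≤ ε := by
  have hpos : (0 : ℝ) < K * m + 1 := by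
    have hm0 : (0 : ℝ) ≤ (m : ℝ) := Nat.cast_nonneg m
    nlinarith
  have hge1 : (1 : ℝ) ≤ K * m + 1 := by
    have hm0 : (0 : ℝ) ≤ (m : ℝ) := Nat.cast_nonneg m
    nlinarith
  refine mixing22_of_gap hm hn r c (1 / (K * m + 1)) (by positivity)
    (by rw [div_le_one hpos]; exact hge1)
    (gap22_two_fat_unit r i0 i1 h01 hr K hK hT2 hD c) x ε hε hε1 t ?_
  rw [div_div_eq_mul_div, div_one]
  exact ht

end twofat

end BlockKnabe

end Vale.Agent.Lib.P328.RP
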