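import Mathlib
import Vale.Agent.Lib.P328.helper72.BlockKnabe

/-!
P328: the Knabe argument with one block of arbitrarily many rows as a site.

Let `B` be a set of rows of the `m × n` tables with margins `r`, `c` such that every row outside
`B` has sum at most one.  The sites are the block `B` and the single rows outside `B`.  The
triples of sites are three rows of sum at most one (known), or the block and two such rows; for
the latter the inequality is the hypothesis `hTriple`, stated for the tables in which the two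
rows of sum one and the block are all the rows.  The outcome (`fat_block_hgap`) is that
resampling the whole table is dominated by the resamplings of the row sets `B ∪ {a}` (`a`
outside `B`) and `{a, b}` (`a`, `b` outside `B`).
-/

namespace Vale.Agent.Lib.P328.RP

open Finset
open Vale.Agent.Lib.P335.Bip

namespace BlockKnabe

section fat

variable {m n : ℕ} {r : Fin m → ℕ} {c : Fin n → ℕ}

/-- Three pairs inside a triple. -/
theorem three_le_sum {α : Type*} [DecidableEq α] (x y z : α) (hxy : x ≠ y) (hxz : x ≠ z)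
    (hyz : y ≠ z) (G : Finset α → ℝ) (hG : ∀ p, 0 ≤ G p) :
    G {x, y} + G {x, z} + G {y, z} ≤ ∑ p ∈ ({x, y, z} : Finset α).powersetCard 2, G p := by
  have hpa : ({x, y} : Finset α) ∈ ({x, y, z} : Finset α).powersetCard 2 := by
    rw [mem_powersetCard]
    refine ⟨?_, card_pair hxy⟩
    intro i hi
    simp only [mem_insert, mem_singleton] at hi ⊢
    tauto
  have hpb : ({x, z} : Finset α) ∈ ({x, y, z} : Finset α).powersetCard 2 := by
    rw [mem_powersetCard]
    refine ⟨?_, card_pair hxz⟩
    intro i hi
    simp only [mem_insert, mem_singleton] at hi ⊢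
    tauto
  have hpc : ({y, z} : Finset α) ∈ ({x, y, z} : Finset α).powersetCard 2 := by
    rw [mem_powersetCard]
    refine ⟨?_, card_pair hyz⟩
    intro i hi
    simp only [mem_insert, mem_singleton] at hi ⊢
    tauto
  have hne1 : ({x, y} : Finset α) ≠ {x, z} := by
    intro h
    have h2 : z ∈ ({x, y} : Finset α) := by
      rw [h]
      exact mem_insert_of_mem (mem_singleton_self _)
    simp only [mem_insert, mem_singleton] at h2
    rcases h2 with h2 | h2
    · exact hxz h2.symm
    · exact hyz h2.symm
  have hne2 : ({x, y} : Finset α) ≠ {y, z} := by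
    intro h
    have h2 : z ∈ ({x, y} : Finset α) := by
      rw [h]
      exact mem_insert_of_mem (mem_singleton_self _)
    simp only [mem_insert, mem_singleton] at h2
    rcases h2 with h2 | h2
    · exact hxz h2.symm
    · exact hyz h2.symm
  have hne3 : ({x, z} : Finset α) ≠ {y, z} := by
    intro h
    have h2 : y ∈ ({x, z} : Finset α) := by
      rw [h]
      exact mem_insert_self _ _
    simp only [mem_insert, mem_singleton] at h2
    rcases h2 with h2 | h2
    · exact hxy h2.symm
    · exact hyz h2
  have hsub : ({{x, y}, {x, z}, {y, z}} : Finset (Finset α))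
      ⊆ ({x, y, z} : Finset α).powersetCard 2 := by
    intro p hp
    simp only [mem_insert, mem_singleton] at hp
    rcases hp with rfl | rfl | rfl
    · exact hpa
    · exact hpb
    · exact hpc
  have hge := Finset.sum_le_sum_of_subset_of_nonneg hsub (fun p _ _ => hG p)
  rw [Finset.sum_insert (by
      simp only [mem_insert, mem_singleton]
      tauto),
    Finset.sum_insert (by
      simp only [mem_singleton]
      exact hne3), Finset.sum_singleton] at hge
  linarith

/-- The three-row inequality for three rows, two of them with sum at most one, inside any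
system: explicit form. -/
theorem triple_small3 (a b d : Fin m) (hab : a ≠ b) (had : a ≠ d) (hbd : b ≠ d)
    (hra : r a ≤ 1) (hrb : r b ≤ 1) (g : CT m n r c → ℝ) :
    ip g (R {a, b} g) + ip g (R {a, d} g) + ip g (R {b, d} g)
      ≤ 2 * ip g g + ip g (R {a, b, d} g) := by
  classical
  set φ : Fin 3 ↪ Fin m := ⟨![a, b, d], inj3 a b d hab had hbd⟩ with hφ
  have e0 : φ 0 = a := rfl
  have e1 : φ 1 = b := rfl
  have e2 : φ 2 = d := rfl
  have hra' : (r ∘ φ) 0 ≤ 1 := by
    simp only [Function.comp_apply, e0]
    exact hra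
  have hrb' : (r ∘ φ) 1 ≤ 1 := by
    simp only [Function.comp_apply, e1]
    exact hrb
  have h3 : ∀ (c' : Fin n → ℕ) (g' : CT 3 n (r ∘ φ) c' → ℝ),
      ∑ q ∈ (univ : Finset (Fin 3)).powersetCard 2, ip g' (R q g')
        ≤ 2 * ip g' g' + ip g' (R univ g') := by
    intro c' g'
    apply threeRow_of_rows (r ∘ φ) c'
    exact fun g'' hg'' => threeRow_rows_of_two_small (r ∘ φ) c' 0 1 (by decide) hra' hrb' g'' hg''
  have h1 := triple_of_threeRow_E_on φ h3 g
  rw [powersetCard_map, Finset.sum_map, pairs3, Finset.sum_insert (by decide),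
    Finset.sum_insert (by decide), Finset.sum_singleton, univ3] at h1
  simp only [RelEmbedding.coe_toEmbedding, mapEmbedding_apply, Finset.map_insert,
    Finset.map_singleton, e0, e1, e2] at h1
  linarith

/-- The inequality for a block and two rows of sum one, transferred to any system in which the
block `B` and the two rows `a`, `b` are some of the rows. -/
theorem fat_triple_transfer
    (hTriple : ∀ (k : ℕ) (r' : Fin k → ℕ) (c' : Fin n → ℕ) (a b : Fin k), a ≠ b →
      r' a = 1 → r' b = 1 → ∀ g : CT k n r' c' → ℝ,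
        ip g (R {a, b} g) + ip g (R (univ.erase b) g) + ip g (R (univ.erase a) g)
          ≤ 2 * ip g g + ip g (R univ g))
    (B : Finset (Fin m)) (a b : Fin m) (ha : a ∉ B) (hb : b ∉ B) (hab : a ≠ b)
    (hra : r a = 1) (hrb : r b = 1) (f : CT m n r c → ℝ) :
    ip f (R {a, b} f) + ip f (R (insert a B) f) + ip f (R (insert b B) f)
      ≤ 2 * ip f f + ip f (R (insert a (insert b B)) f) := by
  classical
  obtain ⟨k, φ, hmap⟩ : ∃ (k : ℕ) (φ : Fin k ↪ Fin m),
      (univ : Finset (Fin k)).map φ = insert a (insert b B) :=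
    ⟨(insert a (insert b B)).card, ((insert a (insert b B)).orderEmbOfFin rfl).toEmbedding,
      map_orderEmbOfFin_univ _ rfl⟩
  have haT : a ∈ (univ : Finset (Fin k)).map φ := by
    rw [hmap]
    exact mem_insert_self _ _
  have hbT : b ∈ (univ : Finset (Fin k)).map φ := by
    rw [hmap]
    exact mem_insert_of_mem (mem_insert_self _ _)
  obtain ⟨a', -, ha'⟩ := Finset.mem_map.mp haT
  obtain ⟨b', -, hb'⟩ := Finset.mem_map.mp hbT
  have hab' : a' ≠ b' := fun h => hab (by rw [← ha', ← hb', h])
  set cf : Fin 4 → ℝ := ![1, 1, 1, -1] with hcf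
  set P : Fin 4 → Finset (Fin k) := ![{a', b'}, univ.erase b', univ.erase a', univ] with hP
  have h : ∀ (c' : Fin n → ℕ) (g : CT k n (r ∘ φ) c' → ℝ),
      ∑ α ∈ (univ : Finset (Fin 4)), cf α * ip g (E (P α) (univ : Finset (Fin n)) g)
        ≤ 2 * ip g g := by
    intro c' g
    have h' := hTriple k (r ∘ φ) c' a' b' hab'
      (by simp only [Function.comp_apply, ha', hra])
      (by simp only [Function.comp_apply, hb', hrb]) g
    rw [Fin.sum_univ_four]
    simp only [hcf, hP, Matrix.cons_val_zero, Matrix.cons_val_one, Matrix.cons_val_two,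
      Matrix.cons_val_three, Matrix.head_cons, Matrix.tail_cons, E_univ_right]
    linarith
  have key := block_transfer_on (univ : Finset (Fin 4)) cf P (fun _ => (univ : Finset (Fin n))) 2
    φ h f
  rw [Fin.sum_univ_four] at key
  simp only [hcf, hP, Matrix.cons_val_zero, Matrix.cons_val_one, Matrix.cons_val_two,
    Matrix.cons_val_three, Matrix.head_cons, Matrix.tail_cons, E_univ_right] at key
  have e1 : ({a', b'} : Finset (Fin k)).map φ = {a, b} := by
    rw [Finset.map_insert, Finset.map_singleton, ha', hb']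
  have e2 : ((univ : Finset (Fin k)).erase b').map φ = insert a B := by
    rw [Finset.map_erase, hmap, hb']
    ext i
    simp only [mem_erase, mem_insert]
    constructor
    · rintro ⟨h1, h2 | h2 | h2⟩
      · exact Or.inl h2
      · exact absurd h2 h1
      · exact Or.inr h2
    · rintro (h2 | h2)
      · exact ⟨by rw [h2]; exact hab, Or.inl h2⟩
      · exact ⟨fun h => hb (h ▸ h2), Or.inr (Or.inr h2)⟩
  have e3 : ((univ : Finset (Fin k)).erase a').map φ = insert b B := by
    rw [Finset.map_erase, hmap, ha']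
    ext i
    simp only [mem_erase, mem_insert]
    constructor
    · rintro ⟨h1, h2 | h2 | h2⟩
      · exact absurd h2 h1
      · exact Or.inl h2
      · exact Or.inr h2
    · rintro (h2 | h2)
      · exact ⟨by rw [h2]; exact fun h => hab h.symm, Or.inr (Or.inl h2)⟩
      · exact ⟨fun h => ha (h ▸ h2), Or.inr (Or.inr h2)⟩
  rw [e1, e2, e3, hmap] at key
  linarith

/-! ### the sites -/

/-- The site of a row: the rows of `B` form the site `none`, every other row is its own
site. -/
def blkB (B : Finset (Fin m)) (i : Fin m) : Option {i : Fin m // i ∉ B} :=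
  if h : i ∈ B then none else some ⟨i, h⟩

theorem blkB_of_mem {B : Finset (Fin m)} {i : Fin m} (h : i ∈ B) : blkB B i = none :=
  dif_pos h

theorem blkB_of_not_mem {B : Finset (Fin m)} {i : Fin m} (h : i ∉ B) :
    blkB B i = some ⟨i, h⟩ :=
  dif_neg h

theorem mem_rowsOf_blkB (B : Finset (Fin m)) (p : Finset (Option {i : Fin m // i ∉ B}))
    (i : Fin m) :
    i ∈ rowsOf (blkB B) p ↔ (i ∈ B ∧ none ∈ p) ∨ (∃ h : i ∉ B, some ⟨i, h⟩ ∈ p) := by
  rw [mem_rowsOf]
  by_cases h : i ∈ B
  · rw [blkB_of_mem h]
    constructor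
    · intro h1
      exact Or.inl ⟨h, h1⟩
    · rintro (⟨_, h1⟩ | ⟨h', _⟩)
      · exact h1
      · exact absurd h h'
  · rw [blkB_of_not_mem h]
    constructor
    · intro h1
      exact Or.inr ⟨h, h1⟩
    · rintro (⟨h', _⟩ | ⟨_, h1⟩)
      · exact absurd h' h
      · exact h1

theorem some_mem_iff (B : Finset (Fin m)) (p : Finset (Option {i : Fin m // i ∉ B}))
    (a : {i : Fin m // i ∉ B}) : a.1 ∈ rowsOf (blkB B) p ↔ some a ∈ p := by
  rw [mem_rowsOf, blkB_of_not_mem a.2]

theorem rowsOf_none_some (B : Finset (Fin m)) (a : {i : Fin m // i ∉ B}) :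
    rowsOf (blkB B) {none, some a} = insert a.1 B := by
  ext i
  rw [mem_rowsOf_blkB]
  simp only [mem_insert, mem_singleton, reduceCtorEq, false_or, true_or, and_true,
    Option.some.injEq]
  constructor
  · rintro (h | ⟨h, h1⟩)
    · exact Or.inr h
    · exact Or.inl (congrArg Subtype.val h1)
  · rintro (h | h)
    · exact Or.inr ⟨by rw [h]; exact a.2, Subtype.ext h⟩
    · exact Or.inl h

theorem rowsOf_some_some (B : Finset (Fin m)) (a b : {i : Fin m // i ∉ B}) :
    rowsOf (blkB B) {some a, some b} = {a.1, b.1} := by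
  ext i
  rw [mem_rowsOf_blkB]
  simp only [mem_insert, mem_singleton, reduceCtorEq, or_self, and_false, false_or,
    Option.some.injEq]
  constructor
  · rintro ⟨h, h1 | h1⟩
    · exact Or.inl (congrArg Subtype.val h1)
    · exact Or.inr (congrArg Subtype.val h1)
  · rintro (h | h)
    · exact ⟨by rw [h]; exact a.2, Or.inl (Subtype.ext h)⟩
    · exact ⟨by rw [h]; exact b.2, Or.inr (Subtype.ext h)⟩

theorem rowsOf_none_some_some (B : Finset (Fin m)) (a b : {i : Fin m // i ∉ B}) :
    rowsOf (blkB B) {none, some a, some b} = insert a.1 (insert b.1 B) := by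
  ext i
  rw [mem_rowsOf_blkB]
  simp only [mem_insert, mem_singleton, reduceCtorEq, false_or, true_or, and_true,
    Option.some.injEq]
  constructor
  · rintro (h | ⟨h, h1 | h1⟩)
    · exact Or.inr (Or.inr h)
    · exact Or.inl (congrArg Subtype.val h1)
    · exact Or.inr (Or.inl (congrArg Subtype.val h1))
  · rintro (h | h | h)
    · exact Or.inr ⟨by rw [h]; exact a.2, Or.inl (Subtype.ext h)⟩
    · exact Or.inr ⟨by rw [h]; exact b.2, Or.inr (Subtype.ext h)⟩
    · exact Or.inl h

theorem rowsOf_some_some_some (B : Finset (Fin m)) (a b d : {i : Fin m // i ∉ B}) :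
    rowsOf (blkB B) {some a, some b, some d} = {a.1, b.1, d.1} := by
  ext i
  rw [mem_rowsOf_blkB]
  simp only [mem_insert, mem_singleton, reduceCtorEq, or_self, and_false, false_or,
    Option.some.injEq]
  constructor
  · rintro ⟨h, h1 | h1 | h1⟩
    · exact Or.inl (congrArg Subtype.val h1)
    · exact Or.inr (Or.inl (congrArg Subtype.val h1))
    · exact Or.inr (Or.inr (congrArg Subtype.val h1))
  · rintro (h | h | h)
    · exact ⟨by rw [h]; exact a.2, Or.inl (Subtype.ext h)⟩
    · exact ⟨by rw [h]; exact b.2, Or.inr (Or.inl (Subtype.ext h))⟩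
    · exact ⟨by rw [h]; exact d.2, Or.inr (Or.inr (Subtype.ext h))⟩

/-- Every pair of rows lies in the rows of a pair of sites. -/
theorem blkB_con (B : Finset (Fin m)) (hne : ∃ a, a ∉ B) (q : Finset (Fin m))
    (hq : q.card = 2) :
    ∃ p : Finset (Option {i : Fin m // i ∉ B}), p.card = 2 ∧ q ⊆ rowsOf (blkB B) p := by
  obtain ⟨x, y, hxy, rfl⟩ := Finset.card_eq_two.mp hq
  by_cases hx : x ∈ B
  · by_cases hy : y ∈ B
    · obtain ⟨a, ha⟩ := hne
      refine ⟨{none, some ⟨a, ha⟩}, card_pair (by simp), ?_⟩
      rw [rowsOf_none_some]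
      intro i hi
      simp only [mem_insert, mem_singleton] at hi
      rcases hi with rfl | rfl
      · exact mem_insert_of_mem hx
      · exact mem_insert_of_mem hy
    · refine ⟨{none, some ⟨y, hy⟩}, card_pair (by simp), ?_⟩
      rw [rowsOf_none_some]
      intro i hi
      simp only [mem_insert, mem_singleton] at hi
      rcases hi with rfl | rfl
      · exact mem_insert_of_mem hx
      · exact mem_insert_self _ _
  · by_cases hy : y ∈ B
    · refine ⟨{none, some ⟨x, hx⟩}, card_pair (by simp), ?_⟩
      rw [rowsOf_none_some]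
      intro i hi
      simp only [mem_insert, mem_singleton] at hi
      rcases hi with rfl | rfl
      · exact mem_insert_self _ _
      · exact mem_insert_of_mem hy
    · refine ⟨{some ⟨x, hx⟩, some ⟨y, hy⟩}, card_pair ?_, ?_⟩
      · intro h
        exact hxy (congrArg Subtype.val (Option.some.inj h))
      · rw [rowsOf_some_some]

/-- The triples of sites have gap one. -/
theorem blkB_triple
    (hTriple : ∀ (k : ℕ) (r' : Fin k → ℕ) (c' : Fin n → ℕ) (a b : Fin k), a ≠ b →
      r' a = 1 → r' b = 1 → ∀ g : CT k n r' c' → ℝ,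
        ip g (R {a, b} g) + ip g (R (univ.erase b) g) + ip g (R (univ.erase a) g)
          ≤ 2 * ip g g + ip g (R univ g))
    (B : Finset (Fin m)) (hB : ∀ i, i ∉ B → r i ≤ 1)
    (T : Finset (Option {i : Fin m // i ∉ B})) (hT : T.card = 3) (g : CT m n r c → ℝ) :
    ip g g - ip g (R (rowsOf (blkB B) T) g)
      ≤ ∑ p ∈ T.powersetCard 2, (ip g g - ip g (R (rowsOf (blkB B) p) g)) := by
  classical
  have hG : ∀ p : Finset (Option {i : Fin m // i ∉ B}),
      0 ≤ ip g g - ip g (R (rowsOf (blkB B) p) g) :=
    fun p => sub_nonneg.mpr (ip_cexp_le _ g)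
  by_cases hnone : none ∈ T
  · -- the block and two rows with sum at most one
    have hc2 : (T.erase none).card = 2 := by rw [card_erase_of_mem hnone, hT]
    obtain ⟨u, v, huv, hTuv⟩ := Finset.card_eq_two.mp hc2
    have huT : u ∈ T.erase none := by rw [hTuv]; exact mem_insert_self _ _
    have hvT : v ∈ T.erase none := by
      rw [hTuv]
      exact mem_insert_of_mem (mem_singleton_self _)
    have hu0 : u ≠ none := (mem_erase.mp huT).1
    have hv0 : v ≠ none := (mem_erase.mp hvT).1
    obtain ⟨a, rfl⟩ := Option.ne_none_iff_exists'.mp hu0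
    obtain ⟨b, rfl⟩ := Option.ne_none_iff_exists'.mp hv0
    have hTeq : T = {none, some a, some b} := by
      rw [← insert_erase hnone, hTuv]
    have hab : a.1 ≠ b.1 := fun h => huv (congrArg some (Subtype.ext h))
    have h3 := three_le_sum (none : Option {i : Fin m // i ∉ B}) (some a) (some b)
      (by simp) (by simp) huv
      (fun p => ip g g - ip g (R (rowsOf (blkB B) p) g)) hG
    rw [hTeq]
    refine le_trans ?_ h3
    rw [rowsOf_none_some_some, rowsOf_none_some, rowsOf_none_some, rowsOf_some_some]
    have hnna : 0 ≤ ip g g - ip g (R (insert a.1 B) g) := sub_nonneg.mpr (ip_cexp_le _ g)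
    have hnnb : 0 ≤ ip g g - ip g (R (insert b.1 B) g) := sub_nonneg.mpr (ip_cexp_le _ g)
    have hnnab : 0 ≤ ip g g - ip g (R ({a.1, b.1} : Finset (Fin m)) g) :=
      sub_nonneg.mpr (ip_cexp_le _ g)
    have hra1 := hB a.1 a.2
    have hrb1 := hB b.1 b.2
    by_cases hza : r a.1 = 0
    · rw [R_insert_zero_row hza]
      linarith
    · by_cases hzb : r b.1 = 0
      · rw [Finset.insert_comm, R_insert_zero_row hzb]
        linarith
      · have key := fat_triple_transfer hTriple B a.1 b.1 a.2 b.2 hab (by omega) (by omega) g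
        linarith
  · -- three rows with sum at most one
    obtain ⟨u, v, w, huv, huw, hvw, hTeq⟩ := Finset.card_eq_three.mp hT
    have huT : u ∈ T := by rw [hTeq]; exact mem_insert_self _ _
    have hvT : v ∈ T := by rw [hTeq]; exact mem_insert_of_mem (mem_insert_self _ _)
    have hwT : w ∈ T := by
      rw [hTeq]
      exact mem_insert_of_mem (mem_insert_of_mem (mem_singleton_self _))
    have hu0 : u ≠ none := fun h => hnone (h ▸ huT)
    have hv0 : v ≠ none := fun h => hnone (h ▸ hvT)
    have hw0 : w ≠ none := fun h => hnone (h ▸ hwT)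
    obtain ⟨a, rfl⟩ := Option.ne_none_iff_exists'.mp hu0
    obtain ⟨b, rfl⟩ := Option.ne_none_iff_exists'.mp hv0
    obtain ⟨d, rfl⟩ := Option.ne_none_iff_exists'.mp hw0
    have hab : a.1 ≠ b.1 := fun h => huv (congrArg some (Subtype.ext h))
    have had : a.1 ≠ d.1 := fun h => huw (congrArg some (Subtype.ext h))
    have hbd : b.1 ≠ d.1 := fun h => hvw (congrArg some (Subtype.ext h))
    have h3 := three_le_sum (some a) (some b) (some d) huv huw hvw
      (fun p => ip g g - ip g (R (rowsOf (blkB B) p) g)) hG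
    rw [hTeq]
    refine le_trans ?_ h3
    rw [rowsOf_some_some_some, rowsOf_some_some, rowsOf_some_some, rowsOf_some_some]
    have key := triple_small3 a.1 b.1 d.1 hab had hbd (hB a.1 a.2) (hB b.1 b.2) g
    linarith

/-! ### the family of row sets -/

/-- The row sets of the block chain: the block `B` together with one row outside `B`, and the
pairs of rows outside `B`. -/
def fatMoves (B : Finset (Fin m)) : Finset (Finset (Fin m)) :=
  (Bᶜ.image (fun a => insert a B)) ∪ Bᶜ.powersetCard 2

theorem rowsOf_pair_mem_fatMoves (B : Finset (Fin m))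
    (p : Finset (Option {i : Fin m // i ∉ B})) (hp : p.card = 2) :
    rowsOf (blkB B) p ∈ fatMoves B := by
  obtain ⟨u, v, huv, rfl⟩ := Finset.card_eq_two.mp hp
  unfold fatMoves
  rcases u with _ | a
  · rcases v with _ | b
    · exact absurd rfl huv
    · rw [rowsOf_none_some]
      exact mem_union_left _ (mem_image.mpr ⟨b.1, mem_compl.mpr b.2, rfl⟩)
  · rcases v with _ | b
    · rw [pair_comm, rowsOf_none_some]
      exact mem_union_left _ (mem_image.mpr ⟨a.1, mem_compl.mpr a.2, rfl⟩)
    · rw [rowsOf_some_some]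
      refine mem_union_right _ (mem_powersetCard.mpr ⟨?_, card_pair ?_⟩)
      · intro i hi
        simp only [mem_insert, mem_singleton] at hi
        rcases hi with rfl | rfl
        · exact mem_compl.mpr a.2
        · exact mem_compl.mpr b.2
      · intro h
        exact huv (congrArg some (Subtype.ext h))

theorem rowsOf_pair_inj (B : Finset (Fin m))
    (p p' : Finset (Option {i : Fin m // i ∉ B})) (hp : p.card = 2) (hp' : p'.card = 2)
    (h : rowsOf (blkB B) p = rowsOf (blkB B) p') : p = p' := by
  have hsome : ∀ a : {i : Fin m // i ∉ B}, some a ∈ p ↔ some a ∈ p' := by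
    intro a
    rw [← some_mem_iff, ← some_mem_iff, h]
  by_cases hn : none ∈ p'
  · apply Finset.eq_of_subset_of_card_le
    · intro u hu
      rcases u with _ | a
      · exact hn
      · exact (hsome a).mp hu
    · rw [hp, hp']
  · symm
    apply Finset.eq_of_subset_of_card_le
    · intro u hu
      rcases u with _ | a
      · exact absurd hu hn
      · exact (hsome a).mpr hu
    · rw [hp, hp']

/-- **The gap of the block chain.**  Let every row outside `B` have sum at most one, and let
some row lie outside `B`.  Then resampling the whole table is dominated by the resamplings of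
the row sets `B ∪ {a}` and `{a, b}`, `a`, `b` outside `B`. -/
theorem fat_block_hgap
    (hTriple : ∀ (k : ℕ) (r' : Fin k → ℕ) (c' : Fin n → ℕ) (a b : Fin k), a ≠ b →
      r' a = 1 → r' b = 1 → ∀ g : CT k n r' c' → ℝ,
        ip g (R {a, b} g) + ip g (R (univ.erase b) g) + ip g (R (univ.erase a) g)
          ≤ 2 * ip g g + ip g (R univ g))
    (B : Finset (Fin m)) (hB : ∀ i, i ∉ B → r i ≤ 1) (hne : ∃ a, a ∉ B)
    (f : CT m n r c → ℝ) :
    ip f f - ip f (R univ f) ≤ ∑ q ∈ fatMoves B, (ip f f - ip f (R q f)) := by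
  classical
  have h1 := block_hgap (blkB B) (blkB_con B hne)
    (fun T hT g => blkB_triple hTriple B hB T hT g) f
  refine h1.trans ?_
  have h2 : ∑ p ∈ (univ : Finset (Option {i : Fin m // i ∉ B})).powersetCard 2,
        (ip f f - ip f (R (rowsOf (blkB B) p) f))
      = ∑ q ∈ ((univ : Finset (Option {i : Fin m // i ∉ B})).powersetCard 2).image
          (rowsOf (blkB B)), (ip f f - ip f (R q f)) := by
    rw [Finset.sum_image]
    intro p hp p' hp' h
    exact rowsOf_pair_inj B p p' (mem_powersetCard.mp hp).2 (mem_powersetCard.mp hp').2 h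
  rw [h2]
  apply Finset.sum_le_sum_of_subset_of_nonneg
  · intro q hq
    obtain ⟨p, hp, rfl⟩ := mem_image.mp hq
    exact rowsOf_pair_mem_fatMoves B p (mem_powersetCard.mp hp).2
  · intro q _ _
    exact sub_nonneg.mpr (ip_cexp_le _ f)

theorem insert_injOn (B : Finset (Fin m)) :
    ∀ a ∈ Bᶜ, ∀ a' ∈ Bᶜ, insert a B = insert a' B → a = a' := by
  intro a ha a' _ h
  have h1 : a ∈ insert a' B := by
    rw [← h]
    exact mem_insert_self _ _
  rcases mem_insert.mp h1 with h2 | h2
  · exact h2
  · exact absurd h2 (mem_compl.mp ha)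

/-- The same, with the two kinds of row sets separated. -/
theorem fat_block_hgap'
    (hTriple : ∀ (k : ℕ) (r' : Fin k → ℕ) (c' : Fin n → ℕ) (a b : Fin k), a ≠ b →
      r' a = 1 → r' b = 1 → ∀ g : CT k n r' c' → ℝ,
        ip g (R {a, b} g) + ip g (R (univ.erase b) g) + ip g (R (univ.erase a) g)
          ≤ 2 * ip g g + ip g (R univ g))
    (B : Finset (Fin m)) (hB : ∀ i, i ∉ B → r i ≤ 1) (hne : ∃ a, a ∉ B)
    (f : CT m n r c → ℝ) :
    ip f f - ip f (R univ f)
      ≤ ∑ a ∈ Bᶜ, (ip f f - ip f (R (insert a B) f))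
        + ∑ q ∈ Bᶜ.powersetCard 2, (ip f f - ip f (R q f)) := by
  classical
  have h1 := fat_block_hgap hTriple B hB hne f
  refine h1.trans ?_
  unfold fatMoves
  have hnn : ∀ q : Finset (Fin m), 0 ≤ ip f f - ip f (R q f) :=
    fun q => sub_nonneg.mpr (ip_cexp_le _ f)
  rw [← Finset.union_sdiff_self_eq_union, Finset.sum_union Finset.disjoint_sdiff,
    Finset.sum_image (insert_injOn B)]
  have h2 : ∑ q ∈ Bᶜ.powersetCard 2 \ Bᶜ.image (fun a => insert a B),
        (ip f f - ip f (R q f))
      ≤ ∑ q ∈ Bᶜ.powersetCard 2, (ip f f - ip f (R q f)) :=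
    Finset.sum_le_sum_of_subset_of_nonneg Finset.sdiff_subset (fun q _ _ => hnn q)
  linarith

theorem fatMoves_nonempty (B : Finset (Fin m)) (hne : ∃ a, a ∉ B) : (fatMoves B).Nonempty := by
  obtain ⟨a, ha⟩ := hne
  exact ⟨insert a B, mem_union_left _ (mem_image.mpr ⟨a, mem_compl.mpr ha, rfl⟩)⟩

theorem card_fatMoves_le (B : Finset (Fin m)) : (fatMoves B).card ≤ m ^ 2 := by
  classical
  unfold fatMoves
  have h1 := Finset.card_union_le (Bᶜ.image (fun a => insert a B)) (Bᶜ.powersetCard 2)
  have h2 : (Bᶜ.image (fun a => insert a B)).card ≤ Bᶜ.card := Finset.card_image_le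
  have h3 : (Bᶜ.powersetCard 2).card = Bᶜ.card.choose 2 := Finset.card_powersetCard 2 _
  have h4 : Bᶜ.card ≤ m := by
    have := Finset.card_le_univ Bᶜ
    rwa [Fintype.card_fin] at this
  have h5 : Bᶜ.card + Bᶜ.card.choose 2 ≤ Bᶜ.card ^ 2 := by
    rw [Nat.choose_two_right]
    rcases Nat.eq_zero_or_pos Bᶜ.card with h0 | h0
    · rw [h0]
      simp
    · have h6 : Bᶜ.card * (Bᶜ.card - 1) / 2 ≤ Bᶜ.card * (Bᶜ.card - 1) := Nat.div_le_self _ _
      have h7 : Bᶜ.card + Bᶜ.card * (Bᶜ.card - 1) = Bᶜ.card ^ 2 := by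
        obtain ⟨k, hk⟩ : ∃ k, Bᶜ.card = k + 1 := ⟨Bᶜ.card - 1, by omega⟩
        rw [hk]
        simp only [Nat.add_sub_cancel]
        ring
      omega
  have h8 : Bᶜ.card ^ 2 ≤ m ^ 2 := Nat.pow_le_pow_left h4 2
  omega

end fat

end BlockKnabe

end Vale.Agent.Lib.P328.RP
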