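import Mathlib
import Vale.Agent.Lib.P328.helper72.FatBlockGap
import Vale.Agent.Lib.P328.helper28.FatFamily
import Vale.Agent.Lib.P328.helper55.UnitRowsNC

/-!
P328: mixing of the block chain for a block `B` of arbitrarily many rows and rows of sum at
most one outside `B`, given the rank-one bound `UnitRows.NCq` for the counts of tables.

The chain `blockBath m n r c (fatFamily B)` draws uniformly at random either a row `a` outside
`B` (and resamples the rows `B ∪ {a}` uniformly given the others) or a pair of rows outside `B`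
(and resamples the two rows).  The block `B` and the single rows outside `B` are the sites of
a local-to-global (Knabe) argument (`BlockKnabe.fat_block_hgap'`); the local inequality for the
block and two rows is `UnitRows.block_triple_erase`.
-/

namespace Vale.Agent.Lib.P328.RP

open Finset
open Vale.Agent.Lib.P335.Bip

/-- The gap inequality of the block chain, given `UnitRows.NCq`. -/
theorem fat_block_hgap_of_ncq (hncq : UnitRows.NCq) {m n : ℕ} (r : Fin m → ℕ) (c : Fin n → ℕ)
    (B : Finset (Fin m)) (hB : ∀ i, i ∉ B → r i ≤ 1) (hne : B ≠ univ) (f : CT m n r c → ℝ) :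
    ip f f - ip f (R univ f)
      ≤ ∑ a ∈ Bᶜ, (ip f f - ip f (R (insert a B) f))
        + ∑ q ∈ Bᶜ.powersetCard 2, (ip f f - ip f (R q f)) := by
  have hex : ∃ a, a ∉ B := by
    by_contra hcon
    exact hne (Finset.eq_univ_iff_forall.mpr (fun a => by_contra (fun ha => hcon ⟨a, ha⟩)))
  refine BlockKnabe.fat_block_hgap' ?_ B hB hex f
  intro k r' c' a b hab ha hb g
  have h := UnitRows.block_triple_erase hncq hab ha.le hb.le g
  linarith

/-- **Mixing of the block chain, given `UnitRows.NCq`.**  If every row outside the block `B` has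
sum at most one and `B` is not the set of all rows, then
`m ^ 2 (m n log (N + 1) + log (1 / ε))` steps of the block chain suffice. -/
theorem mixing_fat_of_ncq (hncq : UnitRows.NCq) {m n : ℕ} (r : Fin m → ℕ) (c : Fin n → ℕ)
    (B : Finset (Fin m)) (hB : ∀ i, i ∉ B → r i ≤ 1) (hne : B ≠ univ)
    (x : CT m n r c) (ε : ℝ) (hε : 0 < ε) (hε1 : ε ≤ 1) (t : ℕ)
    (ht : (m : ℝ) ^ 2 *
      (m * n * Real.log (((∑ i, r i : ℕ) : ℝ) + 1) + Real.log (1 / ε)) ≤ t) :
    (1 / 2) * ∑ y, |(blockBath m n r c (fatFamily B) ^ t) x y
      - 1 / (Fintype.card (CT m n r c) : ℝ)| ≤ ε :=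
  mixing_fat_of_hgap r c B hne (fun f => fat_block_hgap_of_ncq hncq r c B hB hne f)
    x ε hε hε1 t ht

end Vale.Agent.Lib.P328.RP
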