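import Mathlib
import Vale.Agent.Lib.P328.helper72.BlockKnabe
import Vale.Agent.Lib.P328.helper44.CrudeUnit
import Vale.Agent.Lib.P328.helper55.FourRow

/-!
P328: mixing of the heat bath on two-by-two blocks for the margins with two arbitrary rows and
all other row sums at most one (any column sums), reduced to the four-row inequality, and
further to the negative correlation of the two unit columns of the tables with four rows.

* `BlockKnabe.mixing22_two_fat_unit_of_fourRow` : the mixing bound with the step count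
  `m ^ 2 n ^ 2 ((4 n + 1) m + 1) (m n log (N + 1) + log (1 / ε))`, given the four-row
  inequality (the crude three-row gap is the one of `crude_unit_gap`).
* `BlockKnabe.mixing22_two_fat_unit_of_negcorr` : the same, given the negative correlation of
  the two unit columns.
-/

namespace Vale.Agent.Lib.P328.RP

open Finset
open Vale.Agent.Lib.P335.Bip

namespace BlockKnabe

/-- **Two arbitrary rows and rows with sum at most one, any column sums**: the mixing bound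
for the heat bath on two-by-two blocks, given the four-row inequality. -/
theorem mixing22_two_fat_unit_of_fourRow {m n : ℕ} (hm : 2 ≤ m) (hn : 2 ≤ n) (r : Fin m → ℕ)
    (i0 i1 : Fin m) (hr : ∀ i, i ≠ i0 → i ≠ i1 → r i ≤ 1)
    (hT2 : ∀ (r4 : Fin 4 → ℕ) (c' : Fin n → ℕ), r4 2 = 1 → r4 3 = 1 → ∀ g : CT 4 n r4 c' → ℝ,
      ip g (R ({0, 1, 2} : Finset (Fin 4)) g) + ip g (R ({0, 1, 3} : Finset (Fin 4)) g)
        + ip g (R ({2, 3} : Finset (Fin 4)) g) ≤ 2 * ip g g + ip g (R univ g))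
    (c : Fin n → ℕ) (x : CT m n r c) (ε : ℝ) (hε : 0 < ε) (hε1 : ε ≤ 1) (t : ℕ)
    (ht : (m : ℝ) ^ 2 * (n : ℝ) ^ 2 * ((4 * (n : ℝ) + 1) * m + 1) *
      (m * n * Real.log (((∑ i, r i : ℕ) : ℝ) + 1) + Real.log (1 / ε)) ≤ t) :
    (1 / 2) * ∑ y, |(heatBath22 m n r c ^ t) x y - 1 / (Fintype.card (CT m n r c) : ℝ)| ≤ ε := by
  have hK : (1 : ℝ) ≤ 4 * (n : ℝ) + 1 := by
    have h0 : (0 : ℝ) ≤ (n : ℝ) := Nat.cast_nonneg n
    linarith
  have hD : ∀ (r3 : Fin 3 → ℕ) (c' : Fin n → ℕ), r3 2 = 1 → ∀ g : CT 3 n r3 c' → ℝ,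
      ip g g - ip g (R univ g)
        ≤ (4 * (n : ℝ) + 1)
          * ∑ q ∈ (univ : Finset (Fin 3)).powersetCard 2, (ip g g - ip g (R q g)) :=
    fun r3 c' h2 g => crude_unit_gap r3 c' (le_of_eq h2) g
  by_cases h01 : i0 = i1
  · have : Nontrivial (Fin m) := Fin.nontrivial_iff_two_le.mpr hm
    obtain ⟨i1', hi1'⟩ := exists_ne i0
    exact mixing22_two_fat_unit_of hm hn r i0 i1' (Ne.symm hi1')
      (fun i hi0 _ => hr i hi0 (h01 ▸ hi0)) _ hK hT2 hD c x ε hε hε1 t ht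
  · exact mixing22_two_fat_unit_of hm hn r i0 i1 h01 hr _ hK hT2 hD c x ε hε hε1 t ht

/-- The same, given the negative correlation of the two unit columns of the tables with four
rows whose last two rows have sum one. -/
theorem mixing22_two_fat_unit_of_negcorr {m n : ℕ} (hm : 2 ≤ m) (hn : 2 ≤ n) (r : Fin m → ℕ)
    (i0 i1 : Fin m) (hr : ∀ i, i ≠ i0 → i ≠ i1 → r i ≤ 1)
    (hNC : ∀ (r4 : Fin 4 → ℕ) (c' : Fin n → ℕ) (h2 : r4 2 = 1) (h3 : r4 3 = 1)
      (σ : Fin n → ℝ), ∑ x : CT 4 n r4 c', σ (FourRow.ucol 2 h2 x) = 0 →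
        ∑ x : CT 4 n r4 c', σ (FourRow.ucol 2 h2 x) * σ (FourRow.ucol 3 h3 x) ≤ 0)
    (c : Fin n → ℕ) (x : CT m n r c) (ε : ℝ) (hε : 0 < ε) (hε1 : ε ≤ 1) (t : ℕ)
    (ht : (m : ℝ) ^ 2 * (n : ℝ) ^ 2 * ((4 * (n : ℝ) + 1) * m + 1) *
      (m * n * Real.log (((∑ i, r i : ℕ) : ℝ) + 1) + Real.log (1 / ε)) ≤ t) :
    (1 / 2) * ∑ y, |(heatBath22 m n r c ^ t) x y - 1 / (Fintype.card (CT m n r c) : ℝ)| ≤ ε := by
  refine mixing22_two_fat_unit_of_fourRow hm hn r i0 i1 hr (fun r4 c' h2 h3 g => ?_) c x ε hε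
    hε1 t ht
  have h := FourRow.fourRow_T2 h2 h3 (hNC r4 c' h2 h3) g
  linarith

end BlockKnabe

end Vale.Agent.Lib.P328.RP
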