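import Mathlib
import Vale.Agent.Lib.P328.helper1.LorCore

/-!
P328: cumulative sums along a line `e_b - e_a` preserve the class `LorF`
(independent proof of `lorF_transfer`).
-/

set_option linter.unusedSectionVars false

namespace Vale.Agent.Lib.P328.NCq

open Finset
open Vale.Agent.Lib.P328.helper74

namespace LT

variable {ι : Type*} [Fintype ι] [DecidableEq ι]

/-! ### bilinear forms -/

theorem bil_right_comb (A : ι → ι → ℝ) (w x u : ι → ℝ) (s t : ℝ) :
    bil A w (fun c => s * x c + t * u c) = s * bil A w x + t * bil A w u := by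
  simp only [bil, Finset.mul_sum, ← Finset.sum_add_distrib]
  refine Finset.sum_congr rfl (fun a _ => Finset.sum_congr rfl (fun b _ => ?_))
  ring

theorem bil_single_left (A : ι → ι → ℝ) (a : ι) (u : ι → ℝ) :
    bil A (Pi.single a 1) u = ∑ s, A a s * u s := by
  unfold bil
  rw [Finset.sum_eq_single a]
  · refine Finset.sum_congr rfl (fun s _ => ?_)
    rw [Pi.single_eq_same, one_mul]
  · intro c _ hc
    refine Finset.sum_eq_zero (fun s _ => ?_)
    rw [Pi.single_eq_of_ne hc, zero_mul, zero_mul]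
  · intro h
    exact absurd (mem_univ a) h

theorem bil_single_single (A : ι → ι → ℝ) (a b : ι) :
    bil A (Pi.single a 1) (Pi.single b 1) = A a b := by
  rw [bil_single_left, Finset.sum_eq_single b]
  · rw [Pi.single_eq_same, mul_one]
  · intro c _ hc
    rw [Pi.single_eq_of_ne hc, mul_zero]
  · intro h
    exact absurd (mem_univ b) h

/-! ### points of a line -/

/-- The point with `a`-coordinate `i`, `b`-coordinate `j`, and the coordinates of `γ`
elsewhere. -/
def pt (γ : ι → ℕ) (a b : ι) (i j : ℕ) : ι → ℕ :=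
  Function.update (Function.update γ a i) b j

theorem pt_b (γ : ι → ℕ) (a b : ι) (i j : ℕ) : pt γ a b i j b = j := by
  unfold pt
  rw [Function.update_self]

theorem pt_a (γ : ι → ℕ) {a b : ι} (hab : a ≠ b) (i j : ℕ) : pt γ a b i j a = i := by
  unfold pt
  rw [Function.update_of_ne hab, Function.update_self]

theorem pt_of_ne (γ : ι → ℕ) (a b : ι) (i j : ℕ) {s : ι} (hsa : s ≠ a) (hsb : s ≠ b) :
    pt γ a b i j s = γ s := by
  unfold pt
  rw [Function.update_of_ne hsb, Function.update_of_ne hsa]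

theorem pt_self (γ : ι → ℕ) (a b : ι) : pt γ a b (γ a) (γ b) = γ := by
  unfold pt
  rw [Function.update_eq_self, Function.update_eq_self]

theorem pt_add_a (γ : ι → ℕ) {a b : ι} (hab : a ≠ b) (i j : ℕ) :
    pt γ a b i j + Pi.single a 1 = pt γ a b (i + 1) j := by
  funext c
  by_cases hcb : c = b
  · subst hcb
    rw [Pi.add_apply, pt_b, pt_b, Pi.single_eq_of_ne (fun h => hab h.symm), add_zero]
  · by_cases hca : c = a
    · subst hca
      rw [Pi.add_apply, pt_a γ hab, pt_a γ hab, Pi.single_eq_same]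
    · rw [Pi.add_apply, pt_of_ne γ a b i j hca hcb, pt_of_ne γ a b (i + 1) j hca hcb,
        Pi.single_eq_of_ne hca, add_zero]

theorem pt_add_b (γ : ι → ℕ) {a b : ι} (hab : a ≠ b) (i j : ℕ) :
    pt γ a b i j + Pi.single b 1 = pt γ a b i (j + 1) := by
  funext c
  by_cases hcb : c = b
  · subst hcb
    rw [Pi.add_apply, pt_b, pt_b, Pi.single_eq_same]
  · by_cases hca : c = a
    · subst hca
      rw [Pi.add_apply, pt_a γ hab, pt_a γ hab, Pi.single_eq_of_ne hcb, add_zero]
    · rw [Pi.add_apply, pt_of_ne γ a b i j hca hcb, pt_of_ne γ a b i (j + 1) hca hcb,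
        Pi.single_eq_of_ne hcb, add_zero]

/-- The transfer at a point of the line, with a spectator shift `δ`. -/
theorem transfer_pt {a b : ι} (hab : a ≠ b) (F : (ι → ℕ) → ℝ) (γ δ : ι → ℕ) (hδa : δ a = 0)
    (hδb : δ b = 0) (i j : ℕ) :
    transfer a b F (pt γ a b i j + δ)
      = ∑ k ∈ range (j + 1), F (pt γ a b (i + k) (j - k) + δ) := by
  unfold transfer
  have hb : (pt γ a b i j + δ) b = j := by rw [Pi.add_apply, pt_b, hδb, add_zero]
  have ha : (pt γ a b i j + δ) a = i := by rw [Pi.add_apply, pt_a γ hab, hδa, add_zero]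
  rw [hb, ha]
  refine Finset.sum_congr rfl (fun k _ => ?_)
  congr 1
  funext c
  by_cases hca : c = a
  · subst hca
    rw [Function.update_self, Pi.add_apply, pt_a γ hab, hδa, add_zero]
  · rw [Function.update_of_ne hca]
    by_cases hcb : c = b
    · subst hcb
      rw [Function.update_self, Pi.add_apply, pt_b, hδb, add_zero]
    · rw [Function.update_of_ne hcb, Pi.add_apply, Pi.add_apply, pt_of_ne γ a b _ _ hca hcb,
        pt_of_ne γ a b _ _ hca hcb]

/-! ### cut-off sequences -/

/-- A sequence on the naturals, cut off to the integers `0 ≤ ρ ≤ K`. -/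
def cut (K : ℤ) (N : ℕ → ℝ) (ρ : ℤ) : ℝ := if 0 ≤ ρ ∧ ρ ≤ K then N ρ.toNat else 0

theorem cut_nat (K : ℤ) (N : ℕ → ℝ) (j : ℕ) (h : (j : ℤ) ≤ K) : cut K N (j : ℤ) = N j := by
  unfold cut
  rw [if_pos ⟨Int.natCast_nonneg j, h⟩, Int.toNat_natCast]

theorem cut_of_neg (K : ℤ) (N : ℕ → ℝ) {ρ : ℤ} (h : ρ < 0) : cut K N ρ = 0 :=
  if_neg (fun h' => absurd h'.1 (not_le.mpr h))

theorem cut_of_gt (K : ℤ) (N : ℕ → ℝ) {ρ : ℤ} (h : K < ρ) : cut K N ρ = 0 :=
  if_neg (fun h' => absurd h'.2 (not_le.mpr h))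

theorem sum_cut (K : ℤ) (N : ℕ → ℝ) (C j : ℕ) (hjC : j ≤ C) (hjK : (j : ℤ) ≤ K) :
    ∑ k ∈ range (C + 1), cut K N ((j : ℤ) - (k : ℤ)) = ∑ k ∈ range (j + 1), N (j - k) := by
  rw [← Finset.sum_range_add_sum_Ico _ (show j + 1 ≤ C + 1 by omega)]
  have h2 : ∑ k ∈ Finset.Ico (j + 1) (C + 1), cut K N ((j : ℤ) - (k : ℤ)) = 0 := by
    refine Finset.sum_eq_zero (fun k hk => ?_)
    have := (Finset.mem_Ico.mp hk).1
    exact cut_of_neg K N (by omega)
  rw [h2, add_zero]
  refine Finset.sum_congr rfl (fun k hk => ?_)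
  have hk' : k ≤ j := Nat.lt_succ_iff.mp (Finset.mem_range.mp hk)
  have e : (j : ℤ) - (k : ℤ) = ((j - k : ℕ) : ℤ) := by omega
  rw [e, cut_nat K N (j - k) (by omega)]

/-! ### the sequences of a line -/

section seqs

variable (F : (ι → ℕ) → ℝ) (γ : ι → ℕ) (a b : ι) (v : ι → ℝ) (M : ℕ)

/-- The values of `F` along the line. -/
def wN (ρ : ℕ) : ℝ := F (pt γ a b (M - ρ) ρ)

/-- The first-order sums along the line. -/
def lN (ρ : ℕ) : ℝ := ∑ s, F (pt γ a b (M - 1 - ρ) ρ + Pi.single s 1) * v s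

/-- The second-order sums along the line. -/
def qN (ρ : ℕ) : ℝ := bil (hess F (pt γ a b (M - 2 - ρ) ρ)) v v

variable {F γ a b v M}

theorem transfer_w (hab : a ≠ b) (j : ℕ) (hj : j ≤ M) :
    transfer a b F (pt γ a b (M - j) j) = ∑ k ∈ range (j + 1), wN F γ a b M (j - k) := by
  have h := transfer_pt hab F γ 0 rfl rfl (M - j) j
  simp only [add_zero] at h
  rw [h]
  refine Finset.sum_congr rfl (fun k hk => ?_)
  have hk' : k ≤ j := Nat.lt_succ_iff.mp (Finset.mem_range.mp hk)
  unfold wN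
  have e : M - j + k = M - (j - k) := by omega
  rw [e]

theorem transfer_l (hab : a ≠ b) (hva : v a = 0) (hvb : v b = 0) (j : ℕ) (hj : j + 1 ≤ M) :
    ∑ s, transfer a b F (pt γ a b (M - 1 - j) j + Pi.single s 1) * v s
      = ∑ k ∈ range (j + 1), lN F γ a b v M (j - k) := by
  have h1 : ∀ s, transfer a b F (pt γ a b (M - 1 - j) j + Pi.single s 1) * v s
      = ∑ k ∈ range (j + 1), F (pt γ a b (M - 1 - (j - k)) (j - k) + Pi.single s 1) * v s := by
    intro s
    by_cases hsa : s = a
    · subst hsa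
      rw [hva, mul_zero]
      exact (Finset.sum_eq_zero (fun k _ => mul_zero _)).symm
    · by_cases hsb : s = b
      · subst hsb
        rw [hvb, mul_zero]
        exact (Finset.sum_eq_zero (fun k _ => mul_zero _)).symm
      · rw [transfer_pt hab F γ (Pi.single s 1) (Pi.single_eq_of_ne (Ne.symm hsa) 1)
          (Pi.single_eq_of_ne (Ne.symm hsb) 1), Finset.sum_mul]
        refine Finset.sum_congr rfl (fun k hk => ?_)
        have hk' : k ≤ j := Nat.lt_succ_iff.mp (Finset.mem_range.mp hk)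
        have e : M - 1 - j + k = M - 1 - (j - k) := by omega
        rw [e]
  rw [Finset.sum_congr rfl (fun s _ => h1 s), Finset.sum_comm]
  rfl

theorem transfer_q (hab : a ≠ b) (hva : v a = 0) (hvb : v b = 0) (j : ℕ) (hj : j + 2 ≤ M) :
    bil (hess (transfer a b F) (pt γ a b (M - 2 - j) j)) v v
      = ∑ k ∈ range (j + 1), qN F γ a b v M (j - k) := by
  have h1 : ∀ s s', v s * hess (transfer a b F) (pt γ a b (M - 2 - j) j) s s' * v s'
      = ∑ k ∈ range (j + 1), v s * hess F (pt γ a b (M - 2 - (j - k)) (j - k)) s s' * v s' := by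
    intro s s'
    by_cases hs : v s = 0
    · rw [hs, zero_mul, zero_mul]
      exact (Finset.sum_eq_zero (fun k _ => by rw [zero_mul, zero_mul])).symm
    · by_cases hs' : v s' = 0
      · rw [hs', mul_zero]
        exact (Finset.sum_eq_zero (fun k _ => mul_zero _)).symm
      · have hsa : s ≠ a := fun h => hs (h ▸ hva)
        have hsb : s ≠ b := fun h => hs (h ▸ hvb)
        have hsa' : s' ≠ a := fun h => hs' (h ▸ hva)
        have hsb' : s' ≠ b := fun h => hs' (h ▸ hvb)
        unfold hess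
        have hδa : (Pi.single s 1 + Pi.single s' 1 : ι → ℕ) a = 0 := by
          rw [Pi.add_apply, Pi.single_eq_of_ne (Ne.symm hsa), Pi.single_eq_of_ne (Ne.symm hsa'),
            add_zero]
        have hδb : (Pi.single s 1 + Pi.single s' 1 : ι → ℕ) b = 0 := by
          rw [Pi.add_apply, Pi.single_eq_of_ne (Ne.symm hsb), Pi.single_eq_of_ne (Ne.symm hsb'),
            add_zero]
        rw [add_assoc, transfer_pt hab F γ _ hδa hδb, Finset.mul_sum, Finset.sum_mul]
        refine Finset.sum_congr rfl (fun k hk => ?_)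
        have hk' : k ≤ j := Nat.lt_succ_iff.mp (Finset.mem_range.mp hk)
        have e : M - 2 - j + k = M - 2 - (j - k) := by omega
        rw [e, add_assoc]
  unfold qN bil
  rw [Finset.sum_congr rfl (fun s _ => Finset.sum_congr rfl (fun s' _ => h1 s s')),
    Finset.sum_congr rfl (fun s _ => Finset.sum_comm), Finset.sum_comm]

end seqs

/-! ### the line sequences of a function in `LorF` -/

theorem lor_line {F : (ι → ℕ) → ℝ} (hF : LorF F) (γ : ι → ℕ) {a b : ι} (hab : a ≠ b)
    (v : ι → ℝ) (M : ℕ) :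
    Lor M (cut (M : ℤ) (wN F γ a b M)) (cut ((M : ℤ) - 1) (lN F γ a b v M))
      (cut ((M : ℤ) - 2) (qN F γ a b v M)) := by
  refine ⟨?_, ?_, ?_, ?_, ?_⟩
  · intro ρ h0 hm
    lift ρ to ℕ using h0
    rw [cut_nat _ _ ρ hm]
    exact hF.1 _
  · intro ρ h
    rcases h with h | h
    · exact cut_of_neg _ _ h
    · exact cut_of_gt _ _ h
  · intro ρ h
    rcases h with h | h
    · exact cut_of_neg _ _ h
    · exact cut_of_gt _ _ (by omega)
  · intro ρ h
    rcases h with h | h
    · exact cut_of_neg _ _ h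
    · exact cut_of_gt _ _ (by omega)
  · intro ρ h0 hm y z
    lift ρ to ℕ using h0
    have hm' : ρ ≤ M := by exact_mod_cast hm
    have e1 : (ρ : ℤ) + 1 = ((ρ + 1 : ℕ) : ℤ) := by push_cast; ring
    have e2 : (ρ : ℤ) + 2 = ((ρ + 2 : ℕ) : ℤ) := by push_cast; ring
    rw [e1, e2]
    rcases Nat.lt_or_ge M (ρ + 2) with hlt | hge
    · rcases Nat.lt_or_ge M (ρ + 1) with hlt1 | hge1
      · -- ρ = M
        rw [cut_of_gt (M : ℤ) _ (ρ := ((ρ + 1 : ℕ) : ℤ)) (by omega),
          cut_of_gt (M : ℤ) _ (ρ := ((ρ + 2 : ℕ) : ℤ)) (by omega),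
          cut_of_gt ((M : ℤ) - 1) _ (ρ := ((ρ + 1 : ℕ) : ℤ)) (by omega),
          cut_of_gt ((M : ℤ) - 1) _ (ρ := (ρ : ℤ)) (by omega),
          cut_of_gt ((M : ℤ) - 2) _ (ρ := (ρ : ℤ)) (by omega)]
        simp
      · -- ρ + 1 = M
        rw [cut_of_gt (M : ℤ) _ (ρ := ((ρ + 2 : ℕ) : ℤ)) (by omega),
          cut_of_gt ((M : ℤ) - 1) _ (ρ := ((ρ + 1 : ℕ) : ℤ)) (by omega),
          cut_of_gt ((M : ℤ) - 2) _ (ρ := (ρ : ℤ)) (by omega)]
        nlinarith [sq_nonneg (cut (M : ℤ) (wN F γ a b M) ((ρ + 1 : ℕ) : ℤ) * y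
          + cut ((M : ℤ) - 1) (lN F γ a b v M) (ρ : ℤ) * z)]
    · -- ρ + 2 ≤ M
      rw [cut_nat (M : ℤ) _ ρ (by omega), cut_nat (M : ℤ) _ (ρ + 1) (by omega),
        cut_nat (M : ℤ) _ (ρ + 2) (by omega), cut_nat ((M : ℤ) - 1) _ ρ (by omega),
        cut_nat ((M : ℤ) - 1) _ (ρ + 1) (by omega), cut_nat ((M : ℤ) - 2) _ ρ (by omega)]
      have hsym := hess_symm F (pt γ a b (M - 2 - ρ) ρ)
      have hXX : bil (hess F (pt γ a b (M - 2 - ρ) ρ)) (Pi.single a 1) (Pi.single a 1)
          = wN F γ a b M ρ := by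
        rw [bil_single_single]
        unfold hess wN
        rw [pt_add_a γ hab, pt_add_a γ hab]
        have e : M - 2 - ρ + 1 + 1 = M - ρ := by omega
        rw [e]
      have hXY : bil (hess F (pt γ a b (M - 2 - ρ) ρ)) (Pi.single a 1) (Pi.single b 1)
          = wN F γ a b M (ρ + 1) := by
        rw [bil_single_single]
        unfold hess wN
        rw [pt_add_a γ hab, pt_add_b γ hab]
        have e : M - 2 - ρ + 1 = M - (ρ + 1) := by omega
        rw [e]
      have hYY : bil (hess F (pt γ a b (M - 2 - ρ) ρ)) (Pi.single b 1) (Pi.single b 1)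
          = wN F γ a b M (ρ + 2) := by
        rw [bil_single_single]
        unfold hess wN
        rw [pt_add_b γ hab, pt_add_b γ hab]
        have e : M - 2 - ρ = M - (ρ + 2) := by omega
        rw [e]
      have hXV : bil (hess F (pt γ a b (M - 2 - ρ) ρ)) (Pi.single a 1) v
          = lN F γ a b v M ρ := by
        rw [bil_single_left]
        unfold hess lN
        refine Finset.sum_congr rfl (fun s _ => ?_)
        rw [pt_add_a γ hab]
        have e : M - 2 - ρ + 1 = M - 1 - ρ := by omega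
        rw [e]
      have hYV : bil (hess F (pt γ a b (M - 2 - ρ) ρ)) (Pi.single b 1) v
          = lN F γ a b v M (ρ + 1) := by
        rw [bil_single_left]
        unfold hess lN
        refine Finset.sum_congr rfl (fun s _ => ?_)
        rw [pt_add_b γ hab]
        have e : M - 2 - ρ = M - 1 - (ρ + 1) := by omega
        rw [e]
      have hVV : bil (hess F (pt γ a b (M - 2 - ρ) ρ)) v v = qN F γ a b v M ρ := rfl
      have hpos : 0 < bil (hess F (pt γ a b (M - 2 - ρ) ρ)) (Pi.single a 1) (Pi.single a 1) := by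
        rw [hXX]
        exact hF.1 _
      have hO := hF.2 (pt γ a b (M - 2 - ρ) ρ) (Pi.single a 1)
        (fun s => y * (Pi.single b (1 : ℝ) : ι → ℝ) s + z * v s) hpos
      rw [bil_comb, bil_right_comb, bil_symm hsym v (Pi.single b 1), hXX, hXY, hYY, hXV, hYV,
        hVV] at hO
      nlinarith [hO]

/-! ### the transfer -/

/-- The reverse Cauchy-Schwarz inequality of the second differences of a transfer at the
vector `e_a`, against the vectors `y e_b + v` with `v` vanishing at `a` and `b`. -/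
theorem transfer_core {F : (ι → ℕ) → ℝ} (hF : LorF F) {a b : ι} (hab : a ≠ b) (γ : ι → ℕ)
    (v : ι → ℝ) (hva : v a = 0) (hvb : v b = 0) (y : ℝ) :
    hess (transfer a b F) γ a a
        * (y * y * hess (transfer a b F) γ b b
          + y * bil (hess (transfer a b F) γ) (Pi.single b 1) v
          + y * bil (hess (transfer a b F) γ) (Pi.single b 1) v
          + bil (hess (transfer a b F) γ) v v)
      ≤ (y * hess (transfer a b F) γ a b
          + bil (hess (transfer a b F) γ) (Pi.single a 1) v) ^ 2 := by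
  obtain ⟨M, hM⟩ : ∃ M : ℕ, M = γ a + γ b + 2 := ⟨_, rfl⟩
  have hL := Lor_step (lor_line hF γ hab v M) M 0
  obtain ⟨-, -, -, -, h5⟩ := hL
  have h5' := h5 (γ b : ℤ) (Int.natCast_nonneg _) (by push_cast; omega) y 1
  -- the window sums
  have hW0 : addW M (cut (M : ℤ) (wN F γ a b M)) (γ b : ℤ) = hess (transfer a b F) γ a a := by
    unfold addW hess
    rw [sum_cut (M : ℤ) _ M (γ b) (by omega) (by omega), ← transfer_w hab (γ b) (by omega)]
    congr 1
    rw [← pt_self γ a b, pt_add_a γ hab, pt_add_a γ hab, pt_self]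
    have e : M - γ b = γ a + 1 + 1 := by omega
    rw [e]
  have hW1 : addW M (cut (M : ℤ) (wN F γ a b M)) ((γ b : ℤ) + 1)
      = hess (transfer a b F) γ a b := by
    unfold addW hess
    have e1 : (γ b : ℤ) + 1 = ((γ b + 1 : ℕ) : ℤ) := by push_cast; ring
    rw [e1, sum_cut (M : ℤ) _ M (γ b + 1) (by omega) (by omega),
      ← transfer_w hab (γ b + 1) (by omega)]
    congr 1
    rw [← pt_self γ a b, pt_add_a γ hab, pt_add_b γ hab, pt_self]
    have e : M - (γ b + 1) = γ a + 1 := by omega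
    rw [e]
  have hW2 : addW M (cut (M : ℤ) (wN F γ a b M)) ((γ b : ℤ) + 2)
      = hess (transfer a b F) γ b b := by
    unfold addW hess
    have e1 : (γ b : ℤ) + 2 = ((γ b + 2 : ℕ) : ℤ) := by push_cast; ring
    rw [e1, sum_cut (M : ℤ) _ M (γ b + 2) (by omega) (by omega),
      ← transfer_w hab (γ b + 2) (by omega)]
    congr 1
    rw [← pt_self γ a b, pt_add_b γ hab, pt_add_b γ hab, pt_self]
    have e : M - (γ b + 2) = γ a := by omega
    rw [e]
  have hL0 : addL M 0 (cut (M : ℤ) (wN F γ a b M)) (cut ((M : ℤ) - 1) (lN F γ a b v M)) (γ b : ℤ)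
      = bil (hess (transfer a b F) γ) (Pi.single a 1) v := by
    unfold addL
    rw [zero_mul, add_zero, sum_cut ((M : ℤ) - 1) _ M (γ b) (by omega) (by omega),
      ← transfer_l hab hva hvb (γ b) (by omega), bil_single_left]
    unfold hess
    refine Finset.sum_congr rfl (fun s _ => ?_)
    congr 2
    rw [← pt_self γ a b, pt_add_a γ hab, pt_self]
    have e : M - 1 - γ b = γ a + 1 := by omega
    rw [e]
  have hL1 : addL M 0 (cut (M : ℤ) (wN F γ a b M)) (cut ((M : ℤ) - 1) (lN F γ a b v M))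
      ((γ b : ℤ) + 1) = bil (hess (transfer a b F) γ) (Pi.single b 1) v := by
    unfold addL
    have e1 : (γ b : ℤ) + 1 = ((γ b + 1 : ℕ) : ℤ) := by push_cast; ring
    rw [zero_mul, add_zero, e1, sum_cut ((M : ℤ) - 1) _ M (γ b + 1) (by omega) (by omega),
      ← transfer_l hab hva hvb (γ b + 1) (by omega), bil_single_left]
    unfold hess
    refine Finset.sum_congr rfl (fun s _ => ?_)
    congr 2
    rw [← pt_self γ a b, pt_add_b γ hab, pt_self]
    have e : M - 1 - (γ b + 1) = γ a := by omega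
    rw [e]
  have hQ0 : addQ M 0 (cut (M : ℤ) (wN F γ a b M)) (cut ((M : ℤ) - 1) (lN F γ a b v M))
      (cut ((M : ℤ) - 2) (qN F γ a b v M)) (γ b : ℤ)
      = bil (hess (transfer a b F) γ) v v := by
    unfold addQ
    rw [mul_zero, zero_mul, add_zero, zero_pow (by norm_num), zero_mul, add_zero,
      sum_cut ((M : ℤ) - 2) _ M (γ b) (by omega) (by omega),
      ← transfer_q hab hva hvb (γ b) (by omega)]
    have e : M - 2 - γ b = γ a := by omega
    rw [e, pt_self]
  rw [hW0, hW1, hW2, hL0, hL1, hQ0] at h5'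
  nlinarith [h5']

/-- **Cumulative sums along `e_b - e_a` preserve `LorF`** (second proof). -/
theorem lorF_transfer' (a b : ι) (hab : a ≠ b) (F : (ι → ℕ) → ℝ) (hF : LorF F) :
    LorF (transfer a b F) := by
  have hposG : ∀ p, 0 < transfer a b F p := by
    intro p
    unfold transfer
    exact Finset.sum_pos (fun k _ => hF.1 _) ⟨0, Finset.mem_range.mpr (Nat.succ_pos _)⟩
  refine ⟨hposG, fun γ => ?_⟩
  have hsym := hess_symm (transfer a b F) γ
  refine onePos_of_rcs hsym (Pi.single a 1) ?_ ?_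
  · rw [bil_single_single]
    exact hposG _
  · intro u
    obtain ⟨x, hx⟩ : ∃ x : ℝ, x = u a := ⟨_, rfl⟩
    obtain ⟨y, hy⟩ : ∃ y : ℝ, y = u b := ⟨_, rfl⟩
    obtain ⟨v, hv⟩ : ∃ v : ι → ℝ, v = fun s => if s = a ∨ s = b then 0 else u s := ⟨_, rfl⟩
    have hva : v a = 0 := by rw [hv]; simp
    have hvb : v b = 0 := by rw [hv]; simp
    have hu : u = fun s => x * (Pi.single a (1 : ℝ) : ι → ℝ) s
        + 1 * (y * (Pi.single b (1 : ℝ) : ι → ℝ) s + 1 * v s) := by
      funext s
      by_cases hsa : s = a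
      · subst hsa
        rw [Pi.single_eq_same, Pi.single_eq_of_ne hab, hva, hx]
        ring
      · by_cases hsb : s = b
        · subst hsb
          rw [Pi.single_eq_of_ne hsa, Pi.single_eq_same, hvb, hy]
          ring
        · rw [Pi.single_eq_of_ne hsa, Pi.single_eq_of_ne hsb, hv]
          simp [hsa, hsb]
    have hcore := transfer_core hF hab γ v hva hvb y
    have h1 := bil_comb (hess (transfer a b F) γ) (Pi.single a 1)
      (fun s => y * (Pi.single b (1 : ℝ) : ι → ℝ) s + 1 * v s) x 1 x 1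
    have h2 := bil_right_comb (hess (transfer a b F) γ) (Pi.single a 1) (Pi.single a 1)
      (fun s => y * (Pi.single b (1 : ℝ) : ι → ℝ) s + 1 * v s) x 1
    have h3 := bil_symm hsym (fun s => y * (Pi.single b (1 : ℝ) : ι → ℝ) s + 1 * v s)
      (Pi.single a 1)
    have h4 := bil_right_comb (hess (transfer a b F) γ) (Pi.single a 1) (Pi.single b 1) v y 1
    have h5 := bil_comb (hess (transfer a b F) γ) (Pi.single b 1) v y 1 y 1
    have h6 := bil_symm hsym v (Pi.single b 1)
    have h7 := bil_single_single (hess (transfer a b F) γ) a a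
    have h8 := bil_single_single (hess (transfer a b F) γ) a b
    have h9 := bil_single_single (hess (transfer a b F) γ) b b
    rw [hu, h1, h2, h3, h4, h5, h6, h7, h8, h9]
    nlinarith [hcore]

end LT

end Vale.Agent.Lib.P328.NCq
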